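import Vale.Agent.P141.MathlibUsed
import Vale.Agent.P141.Defs

set_option linter.all false

section

section

open MeasureTheory Filter Topology
open scoped ENNReal SchwartzMap

namespace Vale.Agent.P141

/-- A smooth bump, equal to `1` on `[-1/8,1/8]` and supported in `[-1/4,1/4]`. -/
noncomputable def chi : ContDiffBump (0 : ℝ) := ⟨1 / 8, 1 / 4, by norm_num, by norm_num⟩

/-- Sum of bumps of heights `G m` at the integers `m ∈ S`. -/
noncomputable def bsum (S : Finset ℤ) (G : ℤ → ℝ) (s : ℝ) : ℝ := ∑ m ∈ S, G m * chi (s - m)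

lemma chi_nonneg (x : ℝ) : 0 ≤ chi x := chi.nonneg

lemma chi_le_one (x : ℝ) : chi x ≤ 1 := chi.le_one

lemma chi_eq_one {x : ℝ} (h : |x| ≤ 1 / 8) : chi x = 1 := by
  apply chi.one_of_mem_closedBall
  simpa only [chi, one_div, Metric.mem_closedBall, dist_zero_right, Real.norm_eq_abs] using h

lemma chi_eq_zero {x : ℝ} (h : 1 / 4 ≤ |x|) : chi x = 0 := by
  apply chi.zero_of_le_dist
  simpa only [chi, one_div, dist_zero_right, Real.norm_eq_abs] using h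

lemma bsum_nonneg {S : Finset ℤ} {G : ℤ → ℝ} (hG : ∀ m, 0 ≤ G m) (s : ℝ) : 0 ≤ bsum S G s :=
  Finset.sum_nonneg fun m _ => mul_nonneg (hG m) (chi_nonneg _)

lemma le_bsum {S : Finset ℤ} {G : ℤ → ℝ} (hG : ∀ m, 0 ≤ G m) {s : ℝ} {m : ℤ} (hm : m ∈ S)
    (h : |s - m| ≤ 1 / 8) : G m ≤ bsum S G s := by
  have h1 : G m * chi (s - m) ≤ bsum S G s :=
    Finset.single_le_sum (f := fun m : ℤ => G m * chi (s - m))
      (fun m _ => mul_nonneg (hG m) (chi_nonneg _)) hm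
  rwa [chi_eq_one h, mul_one] at h1

lemma exists_of_bsum_ne_zero {S : Finset ℤ} {G : ℤ → ℝ} {s : ℝ} (h : bsum S G s ≠ 0) :
    ∃ m ∈ S, |s - m| < 1 / 4 := by
  by_contra hcon
  push Not at hcon
  apply h
  apply Finset.sum_eq_zero
  intro m hm
  rw [chi_eq_zero (hcon m hm), mul_zero]

lemma bsum_eq_of_near {S : Finset ℤ} {G : ℤ → ℝ} {s : ℝ} {m : ℤ} (hm : m ∈ S)
    (h : |s - m| < 1 / 4) : bsum S G s = G m * chi (s - m) := by
  unfold bsum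
  apply Finset.sum_eq_single_of_mem m hm
  intro k _ hk
  have : 1 / 4 ≤ |s - k| := by
    have h1 : (1 : ℝ) ≤ |(m : ℝ) - k| := by
      have : (1 : ℤ) ≤ |m - k| := Int.one_le_abs (sub_ne_zero.mpr (Ne.symm hk))
      exact_mod_cast this
    have h2 : |(m : ℝ) - k| ≤ |s - m| + |s - k| := by
      have := abs_sub_abs_le_abs_sub (s - k) (s - m)
      calc |(m : ℝ) - k| = |(s - k) - (s - m)| := by ring_nf
        _ ≤ |s - k| + |s - m| := abs_sub _ _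
        _ = _ := by ring
    linarith only [h, h1, h2]
  rw [chi_eq_zero this, mul_zero]

lemma bsum_rpow_le {S : Finset ℤ} {G : ℤ → ℝ} (hG : ∀ m, 0 ≤ G m) {p : ℝ} (hp : 0 < p) (s : ℝ) :
    ENNReal.ofReal (bsum S G s) ^ p ≤
      ∑ m ∈ S, (Metric.ball (m : ℝ) (1 / 4)).indicator (fun _ => ENNReal.ofReal (G m) ^ p) s := by
  by_cases h : bsum S G s = 0
  · rw [h]; simp only [ENNReal.ofReal_zero, hp, ENNReal.zero_rpow_of_pos, one_div, zero_le]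
  · obtain ⟨m, hm, hs⟩ := exists_of_bsum_ne_zero h
    rw [bsum_eq_of_near hm hs]
    have hmem : s ∈ Metric.ball (m : ℝ) (1 / 4) := by
      rw [Metric.mem_ball, Real.dist_eq]; exact hs
    calc ENNReal.ofReal (G m * chi (s - m)) ^ p ≤ ENNReal.ofReal (G m) ^ p := by
          apply ENNReal.rpow_le_rpow _ hp.le
          apply ENNReal.ofReal_le_ofReal
          exact mul_le_of_le_one_right (hG m) (chi_le_one _)
      _ = (Metric.ball (m : ℝ) (1 / 4)).indicator (fun _ => ENNReal.ofReal (G m) ^ p) s := by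
          rw [Set.indicator_of_mem hmem]
      _ ≤ _ := Finset.single_le_sum
          (f := fun m : ℤ => (Metric.ball (m : ℝ) (1 / 4)).indicator
            (fun _ => ENNReal.ofReal (G m) ^ p) s) (fun _ _ => zero_le) hm

lemma bsum_contDiff (S : Finset ℤ) (G : ℤ → ℝ) : ContDiff ℝ ((⊤ : ℕ∞) : WithTop ℕ∞) (bsum S G) := by
  unfold bsum
  apply ContDiff.sum
  intro m _
  apply ContDiff.mul contDiff_const
  exact chi.contDiff.comp (contDiff_id.sub contDiff_const)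

lemma bsum_hasCompactSupport (S : Finset ℤ) (G : ℤ → ℝ) : HasCompactSupport (bsum S G) := by
  apply HasCompactSupport.of_support_subset_isCompact
    (K := ⋃ m ∈ S, Metric.closedBall (m : ℝ) (1 / 4))
  · exact S.isCompact_biUnion fun m _ => isCompact_closedBall _ _
  · intro s hs
    obtain ⟨m, hm, h⟩ := exists_of_bsum_ne_zero hs
    simp only [Set.mem_iUnion]
    refine ⟨m, hm, ?_⟩
    rw [Metric.mem_closedBall, Real.dist_eq]
    exact h.le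

/-- The bump sum as a complex Schwartz function. -/
noncomputable def bS (S : Finset ℤ) (G : ℤ → ℝ) : 𝓢(ℝ, ℂ) :=
  HasCompactSupport.toSchwartzMap (f := fun s => ((bsum S G s : ℝ) : ℂ))
    ((bsum_hasCompactSupport S G).comp_left (g := fun x : ℝ => (x : ℂ)) (by simp))
    (Complex.ofRealCLM.contDiff.comp (bsum_contDiff S G))

lemma bS_apply (S : Finset ℤ) (G : ℤ → ℝ) (s : ℝ) : bS S G s = ((bsum S G s : ℝ) : ℂ) := rfl

lemma eLpNorm_bS_le {S : Finset ℤ} {G : ℤ → ℝ} (hG : ∀ m, 0 ≤ G m) {p : ℝ} (hp : 0 < p) :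
    eLpNorm (bS S G) (ENNReal.ofReal p) volume ≤
      (∑ m ∈ S, ENNReal.ofReal (G m) ^ p) ^ (1 / p) := by
  have hp0 : ENNReal.ofReal p ≠ 0 := by simpa using hp
  rw [eLpNorm_eq_lintegral_rpow_enorm_toReal hp0 ENNReal.ofReal_ne_top, ENNReal.toReal_ofReal hp.le]
  apply ENNReal.rpow_le_rpow _ (by positivity)
  calc ∫⁻ s, ‖bS S G s‖ₑ ^ p ∂volume = ∫⁻ s, ENNReal.ofReal (bsum S G s) ^ p ∂volume := by
        apply lintegral_congr
        intro s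
        rw [bS_apply, ← ofReal_norm, Complex.norm_real, Real.norm_of_nonneg (bsum_nonneg hG s)]
    _ ≤ ∫⁻ s, ∑ m ∈ S, (Metric.ball (m : ℝ) (1 / 4)).indicator
          (fun _ => ENNReal.ofReal (G m) ^ p) s ∂volume :=
        lintegral_mono fun s => bsum_rpow_le hG hp s
    _ = ∑ m ∈ S, ENNReal.ofReal (G m) ^ p * volume (Metric.ball (m : ℝ) (1 / 4)) := by
        rw [lintegral_finsetSum]
        · apply Finset.sum_congr rfl
          intro m _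
          rw [lintegral_indicator Metric.isOpen_ball.measurableSet, setLIntegral_const]
        · intro m _
          exact measurable_const.indicator Metric.isOpen_ball.measurableSet
    _ ≤ ∑ m ∈ S, ENNReal.ofReal (G m) ^ p := by
        apply Finset.sum_le_sum
        intro m _
        calc ENNReal.ofReal (G m) ^ p * volume (Metric.ball (m : ℝ) (1 / 4))
            ≤ ENNReal.ofReal (G m) ^ p * 1 := by
              gcongr
              rw [Real.volume_ball]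
              rw [ENNReal.ofReal_le_one]
              norm_num
          _ = _ := mul_one _

end Vale.Agent.P141
end
end

section

section

open MeasureTheory Filter Topology
open scoped ENNReal SchwartzMap

namespace Vale.Agent.P141

/-- The (real, nonnegative) integrand of `T` on three bump sums. -/
noncomputable def KK (S₁ S₂ S₃ : Finset ℤ) (G₁ G₂ G₃ : ℤ → ℝ) (x t : ℝ) : ℝ :=
  bsum S₁ G₁ (x - t) * bsum S₂ G₂ (x - 2 * t) * bsum S₃ G₃ (x - 3 * t) / t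

section

variable {S₁ S₂ S₃ : Finset ℤ} {G₁ G₂ G₃ : ℤ → ℝ} {N : ℕ}

lemma mem_Icc_of_KK_ne_zero (hsep : ∀ m₁ ∈ S₁, ∀ m₂ ∈ S₂, 1 ≤ m₁ - m₂ ∧ m₁ - m₂ ≤ N)
    {x t : ℝ} (h : KK S₁ S₂ S₃ G₁ G₂ G₃ x t ≠ 0) :
    t ∈ Set.Icc (1 / 2 : ℝ) (N + 1 / 2) := by
  unfold KK at h
  have h1 : bsum S₁ G₁ (x - t) ≠ 0 := by
    intro h0; apply h; rw [h0]; simp
  have h2 : bsum S₂ G₂ (x - 2 * t) ≠ 0 := by
    intro h0; apply h; rw [h0]; simp
  obtain ⟨m₁, hm₁, hs₁⟩ := exists_of_bsum_ne_zero h1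
  obtain ⟨m₂, hm₂, hs₂⟩ := exists_of_bsum_ne_zero h2
  obtain ⟨ha, hb⟩ := hsep m₁ hm₁ m₂ hm₂
  have ha' : (1 : ℝ) ≤ (m₁ : ℝ) - m₂ := by exact_mod_cast ha
  have hb' : (m₁ : ℝ) - m₂ ≤ N := by exact_mod_cast hb
  rw [abs_lt] at hs₁ hs₂
  constructor
  · linarith only [hs₁, hs₂, ha']
  · linarith only [hs₁, hs₂, hb']

lemma bsum_continuous (S : Finset ℤ) (G : ℤ → ℝ) : Continuous (bsum S G) :=
  (bsum_contDiff S G).continuous

lemma KK_continuousOn (x : ℝ) :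
    ContinuousOn (KK S₁ S₂ S₃ G₁ G₂ G₃ x) (Set.Icc (1 / 2 : ℝ) (N + 1 / 2)) := by
  unfold KK
  apply ContinuousOn.div
  · apply Continuous.continuousOn
    have := bsum_continuous S₁ G₁
    have := bsum_continuous S₂ G₂
    have := bsum_continuous S₃ G₃
    fun_prop
  · exact continuousOn_id
  · intro t ht h0
    rw [h0] at ht
    norm_num at ht

lemma KK_integrableOn (x : ℝ) :
    IntegrableOn (KK S₁ S₂ S₃ G₁ G₂ G₃ x) (Set.Icc (1 / 2 : ℝ) (N + 1 / 2)) volume :=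
  (KK_continuousOn x).integrableOn_compact isCompact_Icc

lemma truncTHT_eq (hsep : ∀ m₁ ∈ S₁, ∀ m₂ ∈ S₂, 1 ≤ m₁ - m₂ ∧ m₁ - m₂ ≤ N)
    {ε R : ℝ} (hε : ε < 1 / 2) (hR : N + 1 / 2 < R) (x : ℝ) :
    truncTHT (bS S₁ G₁) (bS S₂ G₂) (bS S₃ G₃) ε R x =
      ((∫ t in Set.Icc (1 / 2 : ℝ) (N + 1 / 2), KK S₁ S₂ S₃ G₁ G₂ G₃ x t : ℝ) : ℂ) := by
  have hE : ∀ t : ℝ, bS S₁ G₁ (x - t) * bS S₂ G₂ (x - 2 * t) * bS S₃ G₃ (x - 3 * t) / (t : ℂ) =
      ((KK S₁ S₂ S₃ G₁ G₂ G₃ x t : ℝ) : ℂ) := by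
    intro t
    simp only [bS_apply, KK]
    push_cast
    ring
  unfold truncTHT
  have h1 : ∫ t in {t : ℝ | ε < |t| ∧ |t| < R},
      bS S₁ G₁ (x - t) * bS S₂ G₂ (x - 2 * t) * bS S₃ G₃ (x - 3 * t) / (t : ℂ) =
      ∫ t in {t : ℝ | ε < |t| ∧ |t| < R}, ((KK S₁ S₂ S₃ G₁ G₂ G₃ x t : ℝ) : ℂ) := by
    congr 1
    funext t
    exact hE t
  rw [h1, integral_complex_ofReal]
  congr 1
  rw [setIntegral_eq_integral_of_forall_compl_eq_zero, setIntegral_eq_integral_of_forall_compl_eq_zero]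
  · intro t ht
    by_contra h
    exact ht (mem_Icc_of_KK_ne_zero hsep h)
  · intro t ht
    by_contra h
    apply ht
    have h2 := mem_Icc_of_KK_ne_zero hsep h
    have h3 : 0 ≤ t := by linarith only [h2.1]
    show ε < |t| ∧ |t| < R
    rw [abs_of_nonneg h3]
    exact ⟨by linarith only [hε, h2.1], by linarith only [hR, h2.2]⟩

lemma tendsto_truncTHT (hsep : ∀ m₁ ∈ S₁, ∀ m₂ ∈ S₂, 1 ≤ m₁ - m₂ ∧ m₁ - m₂ ≤ N) (x : ℝ) :
    Tendsto (fun q : ℝ × ℝ => truncTHT (bS S₁ G₁) (bS S₂ G₂) (bS S₃ G₃) q.1 q.2 x)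
      (𝓝[>] (0 : ℝ) ×ˢ atTop)
      (𝓝 ((∫ t in Set.Icc (1 / 2 : ℝ) (N + 1 / 2), KK S₁ S₂ S₃ G₁ G₂ G₃ x t : ℝ) : ℂ)) := by
  apply tendsto_const_nhds.congr'
  have h1 : ∀ᶠ ε : ℝ in 𝓝[>] (0 : ℝ), ε < 1 / 2 :=
    nhdsWithin_le_nhds (Iio_mem_nhds (by norm_num))
  have h2 : ∀ᶠ R : ℝ in atTop, (N : ℝ) + 1 / 2 < R := eventually_gt_atTop _
  filter_upwards [h1.prod_mk h2] with q hq
  exact (truncTHT_eq hsep hq.1 hq.2 x).symm

lemma THT_eq (hsep : ∀ m₁ ∈ S₁, ∀ m₂ ∈ S₂, 1 ≤ m₁ - m₂ ∧ m₁ - m₂ ≤ N) (x : ℝ) :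
    THT (bS S₁ G₁) (bS S₂ G₂) (bS S₃ G₃) x =
      ((∫ t in Set.Icc (1 / 2 : ℝ) (N + 1 / 2), KK S₁ S₂ S₃ G₁ G₂ G₃ x t : ℝ) : ℂ) :=
  (tendsto_truncTHT hsep x).limUnder_eq

lemma le_setIntegral_KK (hG₁ : ∀ m, 0 ≤ G₁ m) (hG₂ : ∀ m, 0 ≤ G₂ m) (hG₃ : ∀ m, 0 ≤ G₃ m)
    (hsep : ∀ m₁ ∈ S₁, ∀ m₂ ∈ S₂, 1 ≤ m₁ - m₂ ∧ m₁ - m₂ ≤ N) {x : ℝ} {y τ : ℤ}
    (h₁ : y - τ ∈ S₁) (h₂ : y - 2 * τ ∈ S₂) (h₃ : y - 3 * τ ∈ S₃) (hx : |x - y| ≤ 1 / 32) :
    (1 / (16 * (N + 1)) : ℝ) * (G₁ (y - τ) * G₂ (y - 2 * τ) * G₃ (y - 3 * τ)) ≤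
      ∫ t in Set.Icc ((τ : ℝ) - 1 / 32) (τ + 1 / 32), KK S₁ S₂ S₃ G₁ G₂ G₃ x t := by
  obtain ⟨ha, hb⟩ := hsep _ h₁ _ h₂
  have ha' : (1 : ℝ) ≤ τ := by
    have : (1 : ℤ) ≤ τ := by linarith only [ha]
    exact_mod_cast this
  have hb' : (τ : ℝ) ≤ N := by
    have : (τ : ℤ) ≤ N := by linarith only [hb]
    exact_mod_cast this
  have hsub : Set.Icc ((τ : ℝ) - 1 / 32) (τ + 1 / 32) ⊆ Set.Icc (1 / 2 : ℝ) (N + 1 / 2) := by
    intro t ht
    exact ⟨by linarith only [ha', ht.1], by linarith only [hb', ht.2]⟩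
  have hlow : ∀ t ∈ Set.Icc ((τ : ℝ) - 1 / 32) (τ + 1 / 32),
      (1 / (N + 1 : ℝ)) * (G₁ (y - τ) * G₂ (y - 2 * τ) * G₃ (y - 3 * τ)) ≤
        KK S₁ S₂ S₃ G₁ G₂ G₃ x t := by
    intro t ht
    have hx' := abs_le.mp hx
    have e1 : G₁ (y - τ) ≤ bsum S₁ G₁ (x - t) := by
      apply le_bsum hG₁ h₁
      rw [abs_le]; push_cast
      constructor <;> linarith only [hx', ht.1, ht.2]
    have e2 : G₂ (y - 2 * τ) ≤ bsum S₂ G₂ (x - 2 * t) := by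
      apply le_bsum hG₂ h₂
      rw [abs_le]; push_cast
      constructor <;> linarith only [hx', ht.1, ht.2]
    have e3 : G₃ (y - 3 * τ) ≤ bsum S₃ G₃ (x - 3 * t) := by
      apply le_bsum hG₃ h₃
      rw [abs_le]; push_cast
      constructor <;> linarith only [hx', ht.1, ht.2]
    have htpos : 0 < t := by linarith only [ha', ht.1]
    have htle : t ≤ N + 1 := by linarith only [hb', ht.2]
    unfold KK
    rw [one_div, inv_mul_eq_div]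
    have hprod : G₁ (y - τ) * G₂ (y - 2 * τ) * G₃ (y - 3 * τ) ≤
        bsum S₁ G₁ (x - t) * bsum S₂ G₂ (x - 2 * t) * bsum S₃ G₃ (x - 3 * t) := by
      have := hG₁ (y - τ)
      have := hG₂ (y - 2 * τ)
      have := hG₃ (y - 3 * τ)
      have := bsum_nonneg (S := S₁) hG₁ (x - t)
      have := bsum_nonneg (S := S₂) hG₂ (x - 2 * t)
      gcongr
    have hp0 : 0 ≤ bsum S₁ G₁ (x - t) * bsum S₂ G₂ (x - 2 * t) * bsum S₃ G₃ (x - 3 * t) :=
      mul_nonneg (mul_nonneg (bsum_nonneg hG₁ _) (bsum_nonneg hG₂ _)) (bsum_nonneg hG₃ _)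
    exact div_le_div₀ hp0 hprod htpos htle
  calc (1 / (16 * (N + 1)) : ℝ) * (G₁ (y - τ) * G₂ (y - 2 * τ) * G₃ (y - 3 * τ))
      = ∫ _t in Set.Icc ((τ : ℝ) - 1 / 32) (τ + 1 / 32),
          (1 / (N + 1 : ℝ)) * (G₁ (y - τ) * G₂ (y - 2 * τ) * G₃ (y - 3 * τ)) := by
        rw [setIntegral_const, Real.volume_real_Icc_of_le (by linarith only []), smul_eq_mul]
        field_simp
        ring
    _ ≤ ∫ t in Set.Icc ((τ : ℝ) - 1 / 32) (τ + 1 / 32), KK S₁ S₂ S₃ G₁ G₂ G₃ x t := by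
        apply setIntegral_mono_on
        · exact integrableOn_const (by simp only [one_div, Real.volume_Icc, add_sub_sub_cancel, ne_eq, ENNReal.ofReal_ne_top, not_false_eq_true])
        · exact (KK_integrableOn x).mono_set hsub
        · exact measurableSet_Icc
        · exact hlow

/-- Summed version: all shifts `τ ∈ T` contribute on disjoint intervals. -/
lemma sum_le_integral_KK (hG₁ : ∀ m, 0 ≤ G₁ m) (hG₂ : ∀ m, 0 ≤ G₂ m) (hG₃ : ∀ m, 0 ≤ G₃ m)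
    (hsep : ∀ m₁ ∈ S₁, ∀ m₂ ∈ S₂, 1 ≤ m₁ - m₂ ∧ m₁ - m₂ ≤ N) {x : ℝ} {y : ℤ} (T : Finset ℤ)
    (h₁ : ∀ τ ∈ T, y - τ ∈ S₁) (h₂ : ∀ τ ∈ T, y - 2 * τ ∈ S₂) (h₃ : ∀ τ ∈ T, y - 3 * τ ∈ S₃)
    (hx : |x - y| ≤ 1 / 32) :
    (1 / (16 * (N + 1)) : ℝ) * ∑ τ ∈ T, (G₁ (y - τ) * G₂ (y - 2 * τ) * G₃ (y - 3 * τ)) ≤
      ∫ t in Set.Icc (1 / 2 : ℝ) (N + 1 / 2), KK S₁ S₂ S₃ G₁ G₂ G₃ x t := by
  have hnn : ∀ t ∈ Set.Icc (1 / 2 : ℝ) (N + 1 / 2), 0 ≤ KK S₁ S₂ S₃ G₁ G₂ G₃ x t := by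
    intro t ht
    have : 0 ≤ t := by linarith only [ht.1]
    exact div_nonneg (mul_nonneg (mul_nonneg (bsum_nonneg hG₁ _) (bsum_nonneg hG₂ _))
      (bsum_nonneg hG₃ _)) this
  have hsub : ∀ τ ∈ T, Set.Icc ((τ : ℝ) - 1 / 32) (τ + 1 / 32) ⊆
      Set.Icc (1 / 2 : ℝ) (N + 1 / 2) := by
    intro τ hτ t ht
    obtain ⟨ha, hb⟩ := hsep _ (h₁ τ hτ) _ (h₂ τ hτ)
    have ha' : (1 : ℝ) ≤ τ := by
      have : (1 : ℤ) ≤ τ := by linarith only [ha]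
      exact_mod_cast this
    have hb' : (τ : ℝ) ≤ N := by
      have : (τ : ℤ) ≤ N := by linarith only [hb]
      exact_mod_cast this
    exact ⟨by linarith only [ha', ht.1], by linarith only [hb', ht.2]⟩
  calc (1 / (16 * (N + 1)) : ℝ) * ∑ τ ∈ T, (G₁ (y - τ) * G₂ (y - 2 * τ) * G₃ (y - 3 * τ))
      = ∑ τ ∈ T, (1 / (16 * (N + 1)) : ℝ) * (G₁ (y - τ) * G₂ (y - 2 * τ) * G₃ (y - 3 * τ)) := by
        rw [Finset.mul_sum]
    _ ≤ ∑ τ ∈ T, ∫ t in Set.Icc ((τ : ℝ) - 1 / 32) (τ + 1 / 32),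
          KK S₁ S₂ S₃ G₁ G₂ G₃ x t :=
        Finset.sum_le_sum fun τ hτ =>
          le_setIntegral_KK hG₁ hG₂ hG₃ hsep (h₁ τ hτ) (h₂ τ hτ) (h₃ τ hτ) hx
    _ = ∫ t in ⋃ τ ∈ T, Set.Icc ((τ : ℝ) - 1 / 32) (τ + 1 / 32),
          KK S₁ S₂ S₃ G₁ G₂ G₃ x t := by
        rw [integral_biUnion_finset]
        · exact fun τ _ => measurableSet_Icc
        · intro τ _ τ' _ hne
          show Disjoint (Set.Icc ((τ : ℝ) - 1 / 32) (τ + 1 / 32))
            (Set.Icc ((τ' : ℝ) - 1 / 32) (τ' + 1 / 32))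
          rw [Set.disjoint_left]
          intro t ht ht'
          have h1 : (1 : ℝ) ≤ |(τ : ℝ) - τ'| := by
            have : (1 : ℤ) ≤ |τ - τ'| := Int.one_le_abs (sub_ne_zero.mpr hne)
            exact_mod_cast this
          have h2 : |(τ : ℝ) - τ'| ≤ 1 / 16 := by
            rw [abs_le]
            constructor <;> linarith only [ht.1, ht'.2, ht.2, ht'.1]
          linarith only [h1, h2]
        · exact fun τ hτ => (KK_integrableOn x).mono_set (hsub τ hτ)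
    _ ≤ _ := by
        apply setIntegral_mono_set (KK_integrableOn x)
        · filter_upwards [ae_restrict_mem measurableSet_Icc] with t ht
          exact hnn t ht
        · exact Filter.Eventually.of_forall (Set.iUnion₂_subset hsub)

end

end Vale.Agent.P141
end
end

section

section

open MeasureTheory Filter Topology
open scoped ENNReal SchwartzMap

namespace Vale.Agent.P141

section

variable {ι : Type*} {S₁ S₂ S₃ : Finset ℤ} {G₁ G₂ G₃ : ℤ → ℝ} {N : ℕ}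

lemma le_eLpNorm_THT (hG₁ : ∀ m, 0 ≤ G₁ m) (hG₂ : ∀ m, 0 ≤ G₂ m) (hG₃ : ∀ m, 0 ≤ G₃ m)
    (hsep : ∀ m₁ ∈ S₁, ∀ m₂ ∈ S₂, 1 ≤ m₁ - m₂ ∧ m₁ - m₂ ≤ N)
    (J : Finset ι) (y : ι → ℤ) (hinj : Set.InjOn y J) (T : ι → Finset ℤ)
    (h₁ : ∀ j ∈ J, ∀ τ ∈ T j, y j - τ ∈ S₁) (h₂ : ∀ j ∈ J, ∀ τ ∈ T j, y j - 2 * τ ∈ S₂)
    (h₃ : ∀ j ∈ J, ∀ τ ∈ T j, y j - 3 * τ ∈ S₃) {r : ℝ} (hr : 0 < r) :
    (∑ j ∈ J, ENNReal.ofReal ((1 / (16 * (N + 1)) : ℝ) *
        ∑ τ ∈ T j, (G₁ (y j - τ) * G₂ (y j - 2 * τ) * G₃ (y j - 3 * τ))) ^ r *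
          ENNReal.ofReal (1 / 16)) ^ (1 / r) ≤
      eLpNorm (THT (bS S₁ G₁) (bS S₂ G₂) (bS S₃ G₃)) (ENNReal.ofReal r) volume := by
  have hr0 : ENNReal.ofReal r ≠ 0 := by simpa using hr
  rw [eLpNorm_eq_lintegral_rpow_enorm_toReal hr0 ENNReal.ofReal_ne_top, ENNReal.toReal_ofReal hr.le]
  apply ENNReal.rpow_le_rpow _ (by positivity)
  set v : ι → ℝ := fun j => (1 / (16 * (N + 1)) : ℝ) *
        ∑ τ ∈ T j, (G₁ (y j - τ) * G₂ (y j - 2 * τ) * G₃ (y j - 3 * τ)) with hv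
  calc ∑ j ∈ J, ENNReal.ofReal (v j) ^ r * ENNReal.ofReal (1 / 16)
      = ∫⁻ x, ∑ j ∈ J, (Metric.closedBall (y j : ℝ) (1 / 32)).indicator
          (fun _ => ENNReal.ofReal (v j) ^ r) x ∂volume := by
        rw [lintegral_finsetSum]
        · apply Finset.sum_congr rfl
          intro j _
          rw [lintegral_indicator Metric.isClosed_closedBall.measurableSet, setLIntegral_const,
            Real.volume_closedBall]
          congr 2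
          norm_num
        · intro j _
          exact measurable_const.indicator Metric.isClosed_closedBall.measurableSet
    _ ≤ ∫⁻ x, ‖THT (bS S₁ G₁) (bS S₂ G₂) (bS S₃ G₃) x‖ₑ ^ r ∂volume := by
        apply lintegral_mono
        intro x
        show ∑ j ∈ J, (Metric.closedBall (y j : ℝ) (1 / 32)).indicator
          (fun _ => ENNReal.ofReal (v j) ^ r) x ≤ ‖THT (bS S₁ G₁) (bS S₂ G₂) (bS S₃ G₃) x‖ₑ ^ r
        by_cases hex : ∃ j ∈ J, x ∈ Metric.closedBall (y j : ℝ) (1 / 32)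
        · obtain ⟨j, hj, hxj⟩ := hex
          rw [Finset.sum_eq_single_of_mem j hj]
          · rw [Set.indicator_of_mem hxj]
            apply ENNReal.rpow_le_rpow _ hr.le
            rw [THT_eq hsep x, ← ofReal_norm, Complex.norm_real]
            apply ENNReal.ofReal_le_ofReal
            refine le_trans ?_ (le_abs_self _)
            apply sum_le_integral_KK hG₁ hG₂ hG₃ hsep (T j) (h₁ j hj) (h₂ j hj) (h₃ j hj)
            rwa [Metric.mem_closedBall, Real.dist_eq] at hxj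
          · intro k hk hkj
            apply Set.indicator_of_notMem
            intro hxk
            apply hkj
            apply hinj hk hj
            rw [Metric.mem_closedBall, Real.dist_eq] at hxj hxk
            by_contra hne
            have h1 : (1 : ℝ) ≤ |(y k : ℝ) - y j| := by
              have : (1 : ℤ) ≤ |y k - y j| := Int.one_le_abs (sub_ne_zero.mpr hne)
              exact_mod_cast this
            have h2 : |(y k : ℝ) - y j| ≤ |x - y j| + |x - y k| := by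
              calc |(y k : ℝ) - y j| = |(x - y j) - (x - y k)| := by ring_nf
                _ ≤ |x - y j| + |x - y k| := abs_sub _ _
            linarith only [hxj, hxk, h1, h2]
        · push Not at hex
          rw [Finset.sum_eq_zero]
          · exact zero_le
          · intro j hj
            exact Set.indicator_of_notMem (hex j hj) _

/-- The boundedness inequality, with real exponents. -/
def BddWith (p₁ p₂ p₃ r : ℝ) (C : ℝ≥0∞) : Prop :=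
  ∀ f₁ f₂ f₃ : 𝓢(ℝ, ℂ),
    eLpNorm (THT f₁ f₂ f₃) (ENNReal.ofReal r) volume ≤
      C * eLpNorm f₁ (ENNReal.ofReal p₁) volume * eLpNorm f₂ (ENNReal.ofReal p₂) volume *
        eLpNorm f₃ (ENNReal.ofReal p₃) volume

lemma transfer_int {p₁ p₂ p₃ r : ℝ} (hp₁ : 0 < p₁) (hp₂ : 0 < p₂) (hp₃ : 0 < p₃) (hr : 0 < r)
    {C : ℝ≥0∞} (hC : BddWith p₁ p₂ p₃ r C)
    (hG₁ : ∀ m, 0 ≤ G₁ m) (hG₂ : ∀ m, 0 ≤ G₂ m) (hG₃ : ∀ m, 0 ≤ G₃ m)
    (hsep : ∀ m₁ ∈ S₁, ∀ m₂ ∈ S₂, 1 ≤ m₁ - m₂ ∧ m₁ - m₂ ≤ N)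
    (J : Finset ι) (y : ι → ℤ) (hinj : Set.InjOn y J) (T : ι → Finset ℤ)
    (h₁ : ∀ j ∈ J, ∀ τ ∈ T j, y j - τ ∈ S₁) (h₂ : ∀ j ∈ J, ∀ τ ∈ T j, y j - 2 * τ ∈ S₂)
    (h₃ : ∀ j ∈ J, ∀ τ ∈ T j, y j - 3 * τ ∈ S₃) :
    (∑ j ∈ J, ENNReal.ofReal ((1 / (16 * (N + 1)) : ℝ) *
        ∑ τ ∈ T j, (G₁ (y j - τ) * G₂ (y j - 2 * τ) * G₃ (y j - 3 * τ))) ^ r *
          ENNReal.ofReal (1 / 16)) ^ (1 / r) ≤
      C * (∑ m ∈ S₁, ENNReal.ofReal (G₁ m) ^ p₁) ^ (1 / p₁) *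
        (∑ m ∈ S₂, ENNReal.ofReal (G₂ m) ^ p₂) ^ (1 / p₂) *
        (∑ m ∈ S₃, ENNReal.ofReal (G₃ m) ^ p₃) ^ (1 / p₃) := by
  refine (le_eLpNorm_THT hG₁ hG₂ hG₃ hsep J y hinj T h₁ h₂ h₃ hr).trans ?_
  refine (hC _ _ _).trans ?_
  have e1 := eLpNorm_bS_le (S := S₁) hG₁ hp₁
  have e2 := eLpNorm_bS_le (S := S₂) hG₂ hp₂
  have e3 := eLpNorm_bS_le (S := S₃) hG₃ hp₃
  (clear * - e1 e2 e3; gcongr)

end

section

variable {q : ℕ} [NeZero q]

lemma card_filter_cast (a : ℤ) (k : ℕ) (z : ZMod q) :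
    ((Finset.Ico a (a + k * q)).filter (fun m : ℤ => (m : ZMod q) = z)).card = k := by
  have hq : (0 : ℤ) < q := by exact_mod_cast Nat.pos_of_ne_zero (NeZero.ne q)
  have h := Int.Ico_filter_modEq_card a (a + k * q) hq (z.val : ℤ)
  have h2 : (Finset.Ico a (a + k * q)).filter (fun m : ℤ => (m : ZMod q) = z) =
      (Finset.Ico a (a + k * q)).filter (fun m : ℤ => m ≡ (z.val : ℤ) [ZMOD (q : ℤ)]) := by
    apply Finset.filter_congr
    intro m _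
    rw [← ZMod.intCast_eq_intCast_iff]
    simp
  rw [h2]
  have h3 : ((a + k * q : ℤ) - (z.val : ℤ) : ℚ) / ((q : ℤ) : ℚ) =
      (a - (z.val : ℤ) : ℚ) / ((q : ℤ) : ℚ) + (k : ℤ) := by
    have : ((q : ℤ) : ℚ) ≠ 0 := by exact_mod_cast hq.ne'
    field_simp
    push_cast
    ring
  rw [h3, Int.ceil_add_intCast] at h
  have h4 : (((Finset.Ico a (a + k * q)).filter
      (fun m : ℤ => m ≡ (z.val : ℤ) [ZMOD (q : ℤ)])).card : ℤ) = k := by
    rw [h]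
    simp only [ZMod.natCast_val, ZMod.intCast_cast, Int.cast_natCast, add_sub_cancel_left, Nat.cast_nonneg, sup_of_le_left]
  exact_mod_cast h4

lemma sum_cast_eq (a : ℤ) (k : ℕ) (h : ZMod q → ℝ≥0∞) :
    ∑ m ∈ Finset.Ico a (a + k * q), h (m : ZMod q) = k * ∑ z : ZMod q, h z := by
  rw [← Finset.sum_fiberwise_of_maps_to (s := Finset.Ico a (a + k * q)) (t := Finset.univ)
    (g := fun m : ℤ => (m : ZMod q)) (fun _ _ => Finset.mem_univ _), Finset.mul_sum]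
  apply Finset.sum_congr rfl
  intro z _
  have : ∀ m ∈ (Finset.Ico a (a + k * q)).filter (fun m : ℤ => (m : ZMod q) = z),
      h (m : ZMod q) = h z := by
    intro m hm
    rw [(Finset.mem_filter.mp hm).2]
  rw [Finset.sum_congr rfl this, Finset.sum_const, card_filter_cast, nsmul_eq_mul]

end

end Vale.Agent.P141
end
end

section

section

open MeasureTheory Filter Topology
open scoped ENNReal SchwartzMap

namespace Vale.Agent.P141

lemma transfer_zmod {ι : Type*} {p₁ p₂ p₃ r : ℝ} (hp₁ : 0 < p₁) (hp₂ : 0 < p₂) (hp₃ : 0 < p₃)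
    (hr : 0 < r) {C : ℝ≥0∞} (hC : BddWith p₁ p₂ p₃ r C) {q : ℕ} [NeZero q]
    (F₁ F₂ F₃ : ZMod q → ℝ) (hF₁ : ∀ z, 0 ≤ F₁ z) (hF₂ : ∀ z, 0 ≤ F₂ z) (hF₃ : ∀ z, 0 ≤ F₃ z)
    (J : Finset ι) (y : ι → ZMod q) (hinj : Set.InjOn y J) :
    (∑ j ∈ J, ENNReal.ofReal ((1 / (16 * (5 * q + 1)) : ℝ) *
        ∑ τ : ZMod q, (F₁ (y j - τ) * F₂ (y j - 2 * τ) * F₃ (y j - 3 * τ))) ^ r *
          ENNReal.ofReal (1 / 16)) ^ (1 / r) ≤
      C * (4 * ∑ z, ENNReal.ofReal (F₁ z) ^ p₁) ^ (1 / p₁) *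
        (4 * ∑ z, ENNReal.ofReal (F₂ z) ^ p₂) ^ (1 / p₂) *
        (4 * ∑ z, ENNReal.ofReal (F₃ z) ^ p₃) ^ (1 / p₃) := by
  classical
  have hq : 0 < q := Nat.pos_of_ne_zero (NeZero.ne q)
  have hqZ : (0 : ℤ) < q := by exact_mod_cast hq
  set S₁ : Finset ℤ := Finset.Ico (-3 * q : ℤ) (-3 * q + (2 : ℕ) * q) with hS₁
  set S₂ : Finset ℤ := Finset.Ico (-6 * q : ℤ) (-6 * q + (3 : ℕ) * q) with hS₂
  set S₃ : Finset ℤ := Finset.Ico (-9 * q : ℤ) (-9 * q + (4 : ℕ) * q) with hS₃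
  set Y : ι → ℤ := fun j => ((y j).val : ℤ) with hY
  set T : ZMod q → ℤ := fun τ => (τ.val : ℤ) + 2 * q with hT
  have hYb : ∀ j, 0 ≤ Y j ∧ Y j ≤ q - 1 := fun j => by
    have : (y j).val < q := ZMod.val_lt _
    constructor
    · simp only [hY]; omega
    · simp only [hY]; omega
  have hTb : ∀ τ, 2 * q ≤ T τ ∧ T τ ≤ 3 * q - 1 := fun τ => by
    have : τ.val < q := ZMod.val_lt _
    constructor
    · simp only [hT]; omega
    · simp only [hT]; omega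
  have hYc : ∀ j, ((Y j : ℤ) : ZMod q) = y j := fun j => by simp [hY]
  have hTc : ∀ τ, ((T τ : ℤ) : ZMod q) = τ := fun τ => by simp [hT]
  have hTinj : Function.Injective T := fun a b hab => by
    rw [← hTc a, ← hTc b, hab]
  have hsep : ∀ m₁ ∈ S₁, ∀ m₂ ∈ S₂, 1 ≤ m₁ - m₂ ∧ m₁ - m₂ ≤ ((5 * q : ℕ) : ℤ) := by
    intro m₁ h₁ m₂ h₂
    rw [hS₁, Finset.mem_Ico] at h₁
    rw [hS₂, Finset.mem_Ico] at h₂
    push_cast at *
    constructor <;> linarith only [h₁, h₂]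
  have hinjY : Set.InjOn Y J := by
    intro a ha b hb hab
    apply hinj ha hb
    rw [← hYc a, ← hYc b, hab]
  have key := transfer_int (N := 5 * q) (S₁ := S₁) (S₂ := S₂) (S₃ := S₃)
    (G₁ := fun m => F₁ (m : ZMod q)) (G₂ := fun m => F₂ (m : ZMod q))
    (G₃ := fun m => F₃ (m : ZMod q)) hp₁ hp₂ hp₃ hr hC (fun m => hF₁ _) (fun m => hF₂ _)
    (fun m => hF₃ _) hsep J Y hinjY (fun _ => Finset.univ.image T)
    (fun j _ τ' hτ' => by
      obtain ⟨τ, _, rfl⟩ := Finset.mem_image.mp hτ'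
      rw [hS₁, Finset.mem_Ico]; push_cast
      constructor <;> linarith only [(hYb j).1, (hTb τ).2, (hYb j).2, (hTb τ).1])
    (fun j _ τ' hτ' => by
      obtain ⟨τ, _, rfl⟩ := Finset.mem_image.mp hτ'
      rw [hS₂, Finset.mem_Ico]; push_cast
      constructor <;> linarith only [(hYb j).1, (hTb τ).2, (hYb j).2, (hTb τ).1])
    (fun j _ τ' hτ' => by
      obtain ⟨τ, _, rfl⟩ := Finset.mem_image.mp hτ'
      rw [hS₃, Finset.mem_Ico]; push_cast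
      constructor <;> linarith only [(hYb j).1, (hTb τ).2, (hYb j).2, (hTb τ).1])
  have e1 : ∑ m ∈ S₁, ENNReal.ofReal (F₁ (m : ZMod q)) ^ p₁ ≤
      4 * ∑ z, ENNReal.ofReal (F₁ z) ^ p₁ := by
    rw [hS₁, sum_cast_eq _ 2 (fun z : ZMod q => ENNReal.ofReal (F₁ z) ^ p₁)]
    gcongr
    norm_num
  have e2 : ∑ m ∈ S₂, ENNReal.ofReal (F₂ (m : ZMod q)) ^ p₂ ≤
      4 * ∑ z, ENNReal.ofReal (F₂ z) ^ p₂ := by
    rw [hS₂, sum_cast_eq _ 3 (fun z : ZMod q => ENNReal.ofReal (F₂ z) ^ p₂)]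
    gcongr
    norm_num
  have e3 : ∑ m ∈ S₃, ENNReal.ofReal (F₃ (m : ZMod q)) ^ p₃ ≤
      4 * ∑ z, ENNReal.ofReal (F₃ z) ^ p₃ := by
    rw [hS₃, sum_cast_eq _ 4 (fun z : ZMod q => ENNReal.ofReal (F₃ z) ^ p₃)]
    gcongr
    norm_num
  have hL : ∀ j, ENNReal.ofReal ((1 / (16 * (((5 * q : ℕ) : ℝ) + 1)) : ℝ) *
        ∑ τ ∈ Finset.univ.image T, (F₁ ((Y j - τ : ℤ) : ZMod q) *
          F₂ ((Y j - 2 * τ : ℤ) : ZMod q) * F₃ ((Y j - 3 * τ : ℤ) : ZMod q))) ^ r *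
            ENNReal.ofReal (1 / 16) =
      ENNReal.ofReal ((1 / (16 * (5 * q + 1)) : ℝ) *
        ∑ τ : ZMod q, (F₁ (y j - τ) * F₂ (y j - 2 * τ) * F₃ (y j - 3 * τ))) ^ r *
          ENNReal.ofReal (1 / 16) := by
    intro j
    rw [Finset.sum_image fun a _ b _ hab => hTinj hab]
    push_cast
    simp only [hYc, hTc]
  simp only [hL] at key
  refine key.trans ?_
  (clear ι r hr hC hF₁ hF₂ hF₃ J y hinj hq hqZ Y hY T hT hYb hTb hYc hTc hTinj hsep hinjY hL key; gcongr)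

/-- Number of solutions of a nondegenerate linear equation over `ZMod q`, `q` prime. -/
lemma card_linear_eq {q n : ℕ} [Fact q.Prime] (d : Fin n → ZMod q) (hd : d ≠ 0) :
    (Finset.univ.filter (fun g : Fin n → ZMod q => ∑ k, g k * d k = 0)).card * q = q ^ n := by
  classical
  let φ : (Fin n → ZMod q) →+ ZMod q :=
    { toFun := fun g => ∑ k, g k * d k
      map_zero' := by simp only [Pi.zero_apply, zero_mul, Finset.sum_const_zero]
      map_add' := by intro a b; simp only [Pi.add_apply, add_mul, Finset.sum_add_distrib] }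
  have hφ : Function.Surjective φ := by
    obtain ⟨k₀, hk₀⟩ : ∃ k, d k ≠ 0 := by
      by_contra h
      push Not at h
      exact hd (funext h)
    intro z
    refine ⟨Pi.single k₀ (z / d k₀), ?_⟩
    show ∑ k, (Pi.single k₀ (z / d k₀) : Fin n → ZMod q) k * d k = z
    rw [Finset.sum_eq_single k₀]
    · simp [hk₀]
    · intro b _ hb
      simp [Pi.single_eq_of_ne hb]
    · simp only [Finset.mem_univ, not_true_eq_false, Pi.single_eq_same, mul_eq_zero, div_eq_zero_iff, or_self_right, IsEmpty.forall_iff]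
  have h1 : Nat.card (Fin n → ZMod q) = Nat.card φ.ker * φ.ker.index :=
    (AddSubgroup.card_mul_index φ.ker).symm
  rw [AddSubgroup.index_ker, AddMonoidHom.range_eq_top.mpr hφ] at h1
  have h2 : Nat.card (Fin n → ZMod q) = q ^ n := by
    rw [Nat.card_eq_fintype_card]
    simp only [Fintype.card_pi, ZMod.card, Finset.prod_const, Finset.card_univ, Fintype.card_fin]
  have h3 : Nat.card (⊤ : AddSubgroup (ZMod q)) = q := by
    rw [AddSubgroup.card_top]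
    simp
  have h4 : Nat.card φ.ker =
      (Finset.univ.filter (fun g : Fin n → ZMod q => ∑ k, g k * d k = 0)).card := by
    rw [Nat.card_eq_fintype_card, Fintype.card_subtype]
    congr 1
    ext g
    simp only [Finset.mem_filter, Finset.mem_univ, true_and]
    exact AddMonoidHom.mem_ker
  rw [← h4, ← h2, h1, h3]

end Vale.Agent.P141
end
end

section

section

open MeasureTheory Filter Topology
open scoped ENNReal SchwartzMap

namespace Vale.Agent.P141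

/-- The homomorphism `ℤⁿ → ℤ/q` with coefficients `g`. -/
def hom {q n : ℕ} (g : Fin n → ZMod q) (x : Fin n → ℤ) : ZMod q := ∑ k, g k * (x k : ZMod q)

lemma hom_sub {q n : ℕ} (g : Fin n → ZMod q) (x y : Fin n → ℤ) (c : ℤ) :
    hom g (fun k => x k - c * y k) = hom g x - c * hom g y := by
  simp only [hom]
  rw [Finset.mul_sum, ← Finset.sum_sub_distrib]
  apply Finset.sum_congr rfl
  intro k _
  push_cast
  ring

/-- Random homomorphisms: some `g` is injective on at least half of the points. -/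
lemma exists_hom {ι : Type*} {q n : ℕ} [Fact q.Prime] (Ω : Finset ι)
    (x : ι → Fin n → ℤ) (hinj : Set.InjOn x Ω)
    (hB : ∀ j ∈ Ω, ∀ j' ∈ Ω, ∀ k, |x j k - x j' k| < q) (hq : 2 * Ω.card ≤ q) :
    ∃ g : Fin n → ZMod q, ∃ J ⊆ Ω, Ω.card ≤ 2 * J.card ∧ Set.InjOn (fun j => hom g (x j)) J := by
  classical
  set M := Ω.card with hM
  have hqpos : 0 < q := (Fact.out : q.Prime).pos
  -- bad sets
  let bad : (Fin n → ZMod q) → Finset ι := fun g =>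
    Ω.filter (fun j => ∃ j' ∈ Ω, j' ≠ j ∧ hom g (x j') = hom g (x j))
  have hpair : ∀ j ∈ Ω, ∀ j' ∈ Ω, j' ≠ j →
      (Finset.univ.filter (fun g : Fin n → ZMod q => hom g (x j') = hom g (x j))).card * q =
        q ^ n := by
    intro j hj j' hj' hne
    have hd : (fun k => ((x j' k - x j k : ℤ) : ZMod q)) ≠ 0 := by
      intro h0
      apply hne
      apply hinj hj' hj
      funext k
      have h1 : ((x j' k - x j k : ℤ) : ZMod q) = 0 := congrFun h0 k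
      rw [ZMod.intCast_zmod_eq_zero_iff_dvd] at h1
      have h2 := Int.eq_zero_of_abs_lt_dvd h1 (hB j' hj' j hj k)
      linarith only [h2]
    have := card_linear_eq _ hd
    rw [← this]
    congr 2
    apply Finset.filter_congr
    intro g _
    have h3 : ∑ k, g k * ((x j' k - x j k : ℤ) : ZMod q) = hom g (x j') - hom g (x j) := by
      simp only [hom]
      rw [← Finset.sum_sub_distrib]
      apply Finset.sum_congr rfl
      intro k _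
      push_cast
      ring
    rw [h3, sub_eq_zero]
  have hsum : (∑ g : Fin n → ZMod q, (bad g).card) * q ≤ M * M * q ^ n := by
    have h1 : ∀ g, (bad g).card ≤ ∑ j ∈ Ω, ∑ j' ∈ Ω.filter (fun j' => j' ≠ j),
        if hom g (x j') = hom g (x j) then 1 else 0 := by
      intro g
      rw [Finset.card_filter]
      apply Finset.sum_le_sum
      intro j _
      split_ifs with h
      · obtain ⟨j', hj', hne, he⟩ := h
        calc (1 : ℕ) = if hom g (x j') = hom g (x j) then 1 else 0 := by rw [if_pos he]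
          _ ≤ _ := Finset.single_le_sum
            (f := fun j' => if hom g (x j') = hom g (x j) then 1 else 0)
            (s := Ω.filter (fun j' => j' ≠ j))
            (fun _ _ => Nat.zero_le _) (Finset.mem_filter.mpr ⟨hj', hne⟩)
      · exact Nat.zero_le _
    calc (∑ g : Fin n → ZMod q, (bad g).card) * q
        ≤ (∑ g : Fin n → ZMod q, ∑ j ∈ Ω, ∑ j' ∈ Ω.filter (fun j' => j' ≠ j),
            if hom g (x j') = hom g (x j) then 1 else 0) * q := by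
          gcongr with g _
          exact h1 g
      _ = (∑ j ∈ Ω, ∑ j' ∈ Ω.filter (fun j' => j' ≠ j), ∑ g : Fin n → ZMod q,
            if hom g (x j') = hom g (x j) then 1 else 0) * q := by
          congr 1
          rw [Finset.sum_comm]
          apply Finset.sum_congr rfl
          intro j _
          rw [Finset.sum_comm]
      _ = ∑ j ∈ Ω, ∑ j' ∈ Ω.filter (fun j' => j' ≠ j), (∑ g : Fin n → ZMod q,
            if hom g (x j') = hom g (x j) then 1 else 0) * q := by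
          rw [Finset.sum_mul]
          apply Finset.sum_congr rfl
          intro j _
          rw [Finset.sum_mul]
      _ = ∑ j ∈ Ω, ∑ j' ∈ Ω.filter (fun j' => j' ≠ j), q ^ n := by
          apply Finset.sum_congr rfl
          intro j hj
          apply Finset.sum_congr rfl
          intro j' hj'
          rw [Finset.mem_filter] at hj'
          rw [← Finset.card_filter]
          exact hpair j hj j' hj'.1 hj'.2
      _ ≤ ∑ j ∈ Ω, ∑ j' ∈ Ω, q ^ n := by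
          apply Finset.sum_le_sum
          intro j _
          exact Finset.sum_le_sum_of_subset (Finset.filter_subset _ _)
      _ = M * M * q ^ n := by
          simp only [Finset.sum_const, smul_eq_mul]
          ring
  have hcard : Fintype.card (Fin n → ZMod q) = q ^ n := by simp only [Fintype.card_pi, ZMod.card, Finset.prod_const, Finset.card_univ, Fintype.card_fin]
  obtain ⟨g, hg⟩ : ∃ g : Fin n → ZMod q, (bad g).card * q ≤ M * M := by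
    by_contra hcon
    push Not at hcon
    have h1 : ∑ g : Fin n → ZMod q, (M * M + 1) ≤ ∑ g : Fin n → ZMod q, (bad g).card * q :=
      Finset.sum_le_sum fun g _ => hcon g
    rw [← Finset.sum_mul, Finset.sum_const, Finset.card_univ, hcard, smul_eq_mul] at h1
    have h2 : 0 < q ^ n := pow_pos hqpos n
    (clear hq hM hcard hcon; nlinarith [hsum, h1, h2])
  refine ⟨g, Ω \ bad g, Finset.sdiff_subset, ?_, ?_⟩
  · have h1 : (Ω \ bad g).card = M - (bad g).card := by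
      rw [Finset.card_sdiff_of_subset (Finset.filter_subset _ _)]
    have h2 : 2 * (bad g).card ≤ M := by
      by_contra hcon
      push Not at hcon
      have h3 : (bad g).card * (2 * M) ≤ M * M := le_trans (Nat.mul_le_mul_left _ hq) hg
      rcases Nat.eq_zero_or_pos M with h0 | hpos
      · have : (bad g).card ≤ M := Finset.card_le_card (Finset.filter_subset _ _)
        omega
      · nlinarith only [h3, hpos, hcon]
    omega
  · intro a ha b hb hab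
    rw [Finset.mem_coe, Finset.mem_sdiff, Finset.mem_filter] at ha hb
    by_contra hne
    apply hb.2
    exact ⟨hb.1, a, ha.1, hne, hab⟩

end Vale.Agent.P141
end
end

section

section

open MeasureTheory Filter Topology
open scoped ENNReal SchwartzMap

namespace Vale.Agent.P141

/-- Hoelder for counting measure when the exponents sum to at least one. -/
lemma holder3 {ι : Type*} (T : Finset ι) (a₁ a₂ a₃ : ι → ℝ) (h₁ : ∀ t, 0 ≤ a₁ t)
    (h₂ : ∀ t, 0 ≤ a₂ t) (h₃ : ∀ t, 0 ≤ a₃ t) {u₁ u₂ u₃ : ℝ} (hu₁ : 0 < u₁) (hu₂ : 0 < u₂)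
    (hu₃ : 0 < u₃) (hu : 1 ≤ u₁ + u₂ + u₃) :
    ∑ t ∈ T, a₁ t ^ u₁ * a₂ t ^ u₂ * a₃ t ^ u₃ ≤
      (∑ t ∈ T, a₁ t) ^ u₁ * (∑ t ∈ T, a₂ t) ^ u₂ * (∑ t ∈ T, a₃ t) ^ u₃ := by
  have hA₁ : 0 ≤ ∑ t ∈ T, a₁ t := Finset.sum_nonneg fun t _ => h₁ t
  have hA₂ : 0 ≤ ∑ t ∈ T, a₂ t := Finset.sum_nonneg fun t _ => h₂ t
  have hA₃ : 0 ≤ ∑ t ∈ T, a₃ t := Finset.sum_nonneg fun t _ => h₃ t
  have hzero : ∀ a : ι → ℝ, (∀ t, 0 ≤ a t) → ∑ t ∈ T, a t = 0 → ∀ t ∈ T, a t = 0 :=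
    fun a ha h0 t ht => (Finset.sum_eq_zero_iff_of_nonneg fun t _ => ha t).mp h0 t ht
  rcases hA₁.eq_or_lt with h0 | hp₁
  · rw [Finset.sum_eq_zero]
    · (clear * - hA₁ hA₂ hA₃; positivity)
    · intro t ht
      rw [hzero a₁ h₁ h0.symm t ht, Real.zero_rpow hu₁.ne']; ring
  rcases hA₂.eq_or_lt with h0 | hp₂
  · rw [Finset.sum_eq_zero]
    · (clear * - hp₁ hA₂ hA₃; positivity)
    · intro t ht
      rw [hzero a₂ h₂ h0.symm t ht, Real.zero_rpow hu₂.ne']; ring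
  rcases hA₃.eq_or_lt with h0 | hp₃
  · rw [Finset.sum_eq_zero]
    · (clear * - hp₁ hp₂ hA₃; positivity)
    · intro t ht
      rw [hzero a₃ h₃ h0.symm t ht, Real.zero_rpow hu₃.ne']; ring
  set A₁ := ∑ t ∈ T, a₁ t
  set A₂ := ∑ t ∈ T, a₂ t
  set A₃ := ∑ t ∈ T, a₃ t
  set U := u₁ + u₂ + u₃ with hU
  have hUpos : 0 < U := by linarith
  have hpt : ∀ t ∈ T, a₁ t ^ u₁ * a₂ t ^ u₂ * a₃ t ^ u₃ ≤
      (A₁ ^ u₁ * A₂ ^ u₂ * A₃ ^ u₃) *
        (u₁ / U * (a₁ t / A₁) + u₂ / U * (a₂ t / A₂) + u₃ / U * (a₃ t / A₃)) := by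
    intro t ht
    have b₁ : a₁ t / A₁ ≤ 1 := (div_le_one hp₁).mpr (Finset.single_le_sum (fun t _ => h₁ t) ht)
    have b₂ : a₂ t / A₂ ≤ 1 := (div_le_one hp₂).mpr (Finset.single_le_sum (fun t _ => h₂ t) ht)
    have b₃ : a₃ t / A₃ ≤ 1 := (div_le_one hp₃).mpr (Finset.single_le_sum (fun t _ => h₃ t) ht)
    have c₁ : 0 ≤ a₁ t / A₁ := div_nonneg (h₁ t) hp₁.le
    have c₂ : 0 ≤ a₂ t / A₂ := div_nonneg (h₂ t) hp₂.le
    have c₃ : 0 ≤ a₃ t / A₃ := div_nonneg (h₃ t) hp₃.le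
    have e₁ : a₁ t ^ u₁ = A₁ ^ u₁ * (a₁ t / A₁) ^ u₁ := by
      rw [← Real.mul_rpow hp₁.le c₁, mul_div_cancel₀ _ hp₁.ne']
    have e₂ : a₂ t ^ u₂ = A₂ ^ u₂ * (a₂ t / A₂) ^ u₂ := by
      rw [← Real.mul_rpow hp₂.le c₂, mul_div_cancel₀ _ hp₂.ne']
    have e₃ : a₃ t ^ u₃ = A₃ ^ u₃ * (a₃ t / A₃) ^ u₃ := by
      rw [← Real.mul_rpow hp₃.le c₃, mul_div_cancel₀ _ hp₃.ne']
    have hle : ∀ (b u : ℝ), 0 ≤ b → b ≤ 1 → 0 < u → b ^ u ≤ b ^ (u / U) := by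
      intro b u hb0 hb1 hu0
      rcases hb0.eq_or_lt with h | h
      · rw [← h, Real.zero_rpow hu0.ne', Real.zero_rpow (by positivity)]
      · apply Real.rpow_le_rpow_of_exponent_ge h hb1
        rw [div_le_iff₀ hUpos]
        nlinarith only [hu, hu0]
    have hag := Real.geom_mean_le_arith_mean3_weighted (w₁ := u₁ / U) (w₂ := u₂ / U)
      (w₃ := u₃ / U) (by positivity) (by positivity) (by positivity) c₁ c₂ c₃ (by
        rw [← add_div, ← add_div, hU]; exact div_self (by rw [← hU]; exact hUpos.ne'))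
    rw [e₁, e₂, e₃]
    calc A₁ ^ u₁ * (a₁ t / A₁) ^ u₁ * (A₂ ^ u₂ * (a₂ t / A₂) ^ u₂) *
          (A₃ ^ u₃ * (a₃ t / A₃) ^ u₃)
        = (A₁ ^ u₁ * A₂ ^ u₂ * A₃ ^ u₃) *
          ((a₁ t / A₁) ^ u₁ * (a₂ t / A₂) ^ u₂ * (a₃ t / A₃) ^ u₃) := by ring
      _ ≤ (A₁ ^ u₁ * A₂ ^ u₂ * A₃ ^ u₃) *
          ((a₁ t / A₁) ^ (u₁ / U) * (a₂ t / A₂) ^ (u₂ / U) * (a₃ t / A₃) ^ (u₃ / U)) := by
          have f₁ := hle _ _ c₁ b₁ hu₁
          have f₂ := hle _ _ c₂ b₂ hu₂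
          have f₃ := hle _ _ c₃ b₃ hu₃
          (clear * - f₁ f₂ c₂ c₁ f₃ c₃ hp₁ hp₂ hp₃; gcongr)
      _ ≤ _ := by (clear * - hag hp₁ hp₂ hp₃; gcongr)
  calc ∑ t ∈ T, a₁ t ^ u₁ * a₂ t ^ u₂ * a₃ t ^ u₃
      ≤ ∑ t ∈ T, (A₁ ^ u₁ * A₂ ^ u₂ * A₃ ^ u₃) *
        (u₁ / U * (a₁ t / A₁) + u₂ / U * (a₂ t / A₂) + u₃ / U * (a₃ t / A₃)) :=
        Finset.sum_le_sum hpt
    _ = A₁ ^ u₁ * A₂ ^ u₂ * A₃ ^ u₃ := by
        rw [← Finset.mul_sum, Finset.sum_add_distrib, Finset.sum_add_distrib, ← Finset.mul_sum,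
          ← Finset.mul_sum, ← Finset.mul_sum, ← Finset.sum_div, ← Finset.sum_div,
          ← Finset.sum_div, div_self hp₁.ne', div_self hp₂.ne', div_self hp₃.ne', mul_one, mul_one,
          mul_one, ← add_div, ← add_div, div_self hUpos.ne', mul_one]

/-- Push-forward of `Q` under `hom g`, to the power `1/p`. -/
noncomputable def pushF {q n : ℕ} (g : Fin n → ZMod q) (Z : Finset (Fin n → ℤ))
    (Q : (Fin n → ℤ) → ℝ) (p : ℝ) (z : ZMod q) : ℝ :=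
  (∑ ζ ∈ Z.filter (fun ζ => hom g ζ = z), Q ζ) ^ (1 / p)

section

variable {q n : ℕ} {g : Fin n → ZMod q} {Z : Finset (Fin n → ℤ)} {Q : (Fin n → ℤ) → ℝ} {p : ℝ}

lemma pushF_nonneg (hQ : ∀ ζ, 0 ≤ Q ζ) (z : ZMod q) : 0 ≤ pushF g Z Q p z :=
  Real.rpow_nonneg (Finset.sum_nonneg fun ζ _ => hQ ζ) _

/-- The affine image `x - c t`. -/
def aff {n : ℕ} (x : Fin n → ℤ) (c : ℤ) (t : Fin n → ℤ) : Fin n → ℤ := fun k => x k - c * t k

lemma sum_aff_le (hQ : ∀ ζ, 0 ≤ Q ζ) (hp : 0 < p) (x : Fin n → ℤ) {c : ℤ} (hc : c ≠ 0)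
    (T : Finset (Fin n → ℤ)) (hT : ∀ t ∈ T, aff x c t ∈ Z) (τ : ZMod q) :
    (∑ t ∈ T.filter (fun t => hom g t = τ), Q (aff x c t)) ^ (1 / p) ≤
      pushF g Z Q p (hom g x - c * τ) := by
  classical
  apply Real.rpow_le_rpow (Finset.sum_nonneg fun t _ => hQ _) _ (by positivity)
  have hinj : Set.InjOn (aff x c) (T.filter (fun t => hom g t = τ) : Finset (Fin n → ℤ)) := by
    intro a _ b _ hab
    funext k
    have := congrFun hab k
    simp only [aff] at this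
    have h2 : c * a k = c * b k := by linarith only [this]
    exact mul_left_cancel₀ hc h2
  rw [← Finset.sum_image (f := Q) hinj]
  apply Finset.sum_le_sum_of_subset_of_nonneg
  · intro ζ hζ
    obtain ⟨t, ht, rfl⟩ := Finset.mem_image.mp hζ
    rw [Finset.mem_filter] at ht ⊢
    refine ⟨hT t ht.1, ?_⟩
    rw [← ht.2]
    exact hom_sub g x t c
  · intro ζ _ _
    exact hQ ζ

lemma sum_pushF_le [NeZero q] (hQ : ∀ ζ, 0 ≤ Q ζ) (hp : 0 < p) (h1 : ∑ ζ ∈ Z, Q ζ ≤ 1) :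
    ∑ z : ZMod q, ENNReal.ofReal (pushF g Z Q p z) ^ p ≤ 1 := by
  have e : ∀ z : ZMod q, ENNReal.ofReal (pushF g Z Q p z) ^ p =
      ENNReal.ofReal (∑ ζ ∈ Z.filter (fun ζ => hom g ζ = z), Q ζ) := by
    intro z
    rw [ENNReal.ofReal_rpow_of_nonneg (pushF_nonneg hQ z) hp.le]
    unfold pushF
    rw [← Real.rpow_mul (Finset.sum_nonneg fun ζ _ => hQ ζ), one_div_mul_cancel hp.ne',
      Real.rpow_one]
  simp only [e]
  rw [← ENNReal.ofReal_sum_of_nonneg (fun z _ => Finset.sum_nonneg fun ζ _ => hQ ζ),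
    Finset.sum_fiberwise]
  exact ENNReal.ofReal_le_one.mpr h1

end

lemma transfer_group {p₁ p₂ p₃ r : ℝ} (hp₁ : 0 < p₁) (hp₂ : 0 < p₂) (hp₃ : 0 < p₃) (hr : 0 < r)
    (hu : 1 ≤ 1 / p₁ + 1 / p₂ + 1 / p₃)
    {C : ℝ≥0∞} (hCt : C < ∞) (hC : BddWith p₁ p₂ p₃ r C) :
    ∃ K : ℝ, 0 < K ∧ ∀ (n : ℕ) (Ω : Finset (Fin n → ℤ)) (T Z : Finset (Fin n → ℤ))
      (Q₁ Q₂ Q₃ : (Fin n → ℤ) → ℝ) (W : ℝ),
      0 < Ω.card →
      (∀ x ∈ Ω, ∀ x' ∈ Ω, ∀ k, |x k - x' k| < 2 * Ω.card) →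
      (∀ ζ, 0 ≤ Q₁ ζ) → (∀ ζ, 0 ≤ Q₂ ζ) → (∀ ζ, 0 ≤ Q₃ ζ) →
      (∑ ζ ∈ Z, Q₁ ζ ≤ 1) → (∑ ζ ∈ Z, Q₂ ζ ≤ 1) → (∑ ζ ∈ Z, Q₃ ζ ≤ 1) →
      (∀ x ∈ Ω, ∀ t ∈ T, aff x 1 t ∈ Z) →
      (∀ x ∈ Ω, ∀ t ∈ T, aff x 2 t ∈ Z) →
      (∀ x ∈ Ω, ∀ t ∈ T, aff x 3 t ∈ Z) →
      0 ≤ W →
      (∀ x ∈ Ω, W ≤ ∑ t ∈ T, Q₁ (aff x 1 t) ^ (1 / p₁) *
        Q₂ (aff x 2 t) ^ (1 / p₂) * Q₃ (aff x 3 t) ^ (1 / p₃)) →
      W * (Ω.card : ℝ) ^ (1 / r - 1) ≤ K := by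
  set K₀ : ℝ := (C * 4 ^ (1 / p₁) * 4 ^ (1 / p₂) * 4 ^ (1 / p₃)).toReal with hK₀
  have hKfin : C * 4 ^ (1 / p₁) * 4 ^ (1 / p₂) * 4 ^ (1 / p₃) ≠ ∞ := by
    have h4 : ∀ a : ℝ, 0 < a → (4 : ℝ≥0∞) ^ (1 / a) ≠ ∞ := fun a ha =>
      ENNReal.rpow_ne_top_of_nonneg (by positivity) (by norm_num)
    exact ENNReal.mul_ne_top (ENNReal.mul_ne_top (ENNReal.mul_ne_top hCt.ne (h4 _ hp₁))
      (h4 _ hp₂)) (h4 _ hp₃)
  have hK₀nn : 0 ≤ K₀ := ENNReal.toReal_nonneg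
  refine ⟨336 * 32 ^ (1 / r) * (K₀ + 1), by positivity, ?_⟩
  intro n Ω T Z Q₁ Q₂ Q₃ W hM hB hQ₁ hQ₂ hQ₃ hs₁ hs₂ hs₃ hZ₁ hZ₂ hZ₃ hW hle
  set M := Ω.card with hMdef
  obtain ⟨q, hqp, hq1, hq2⟩ := Nat.exists_prime_lt_and_le_two_mul (2 * M) (by omega)
  have : Fact q.Prime := ⟨hqp⟩
  have : NeZero q := ⟨hqp.ne_zero⟩
  obtain ⟨g, J, hJ, hJc, hJi⟩ := exists_hom (q := q) Ω (fun x => x) (fun _ _ _ _ h => h)
    (fun j hj j' hj' k => (hB j hj j' hj' k).trans (by exact_mod_cast hq1)) hq1.le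
  have key := transfer_zmod hp₁ hp₂ hp₃ hr hC (pushF g Z Q₁ p₁) (pushF g Z Q₂ p₂)
    (pushF g Z Q₃ p₃) (pushF_nonneg hQ₁) (pushF_nonneg hQ₂) (pushF_nonneg hQ₃) J
    (fun x => hom g x) hJi
  have hterm : ∀ x ∈ J, W ≤ ∑ τ : ZMod q, (pushF g Z Q₁ p₁ (hom g x - τ) *
      pushF g Z Q₂ p₂ (hom g x - 2 * τ) * pushF g Z Q₃ p₃ (hom g x - 3 * τ)) := by
    intro x hx
    have hxΩ := hJ hx
    refine (hle x hxΩ).trans ?_
    rw [← Finset.sum_fiberwise T (fun t => hom g t)]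
    apply Finset.sum_le_sum
    intro τ _
    refine (holder3 (T.filter (fun t => hom g t = τ)) (fun t => Q₁ (aff x 1 t))
      (fun t => Q₂ (aff x 2 t)) (fun t => Q₃ (aff x 3 t)) (fun t => hQ₁ _) (fun t => hQ₂ _)
      (fun t => hQ₃ _) (by positivity) (by positivity) (by positivity) hu).trans ?_
    have a1 := sum_aff_le (g := g) (Z := Z) hQ₁ hp₁ x (c := 1) (by norm_num) T (hZ₁ x hxΩ) τ
    have a2 := sum_aff_le (g := g) (Z := Z) hQ₂ hp₂ x (c := 2) (by norm_num) T (hZ₂ x hxΩ) τ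
    have a3 := sum_aff_le (g := g) (Z := Z) hQ₃ hp₃ x (c := 3) (by norm_num) T (hZ₃ x hxΩ) τ
    push_cast at a1 a2 a3
    rw [one_mul] at a1
    have c1 : 0 ≤ (∑ t ∈ T.filter (fun t => hom g t = τ), Q₁ (aff x 1 t)) ^ (1 / p₁) :=
      Real.rpow_nonneg (Finset.sum_nonneg fun t _ => hQ₁ _) _
    have c2 : 0 ≤ (∑ t ∈ T.filter (fun t => hom g t = τ), Q₂ (aff x 2 t)) ^ (1 / p₂) :=
      Real.rpow_nonneg (Finset.sum_nonneg fun t _ => hQ₂ _) _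
    have c3 : 0 ≤ (∑ t ∈ T.filter (fun t => hom g t = τ), Q₃ (aff x 3 t)) ^ (1 / p₃) :=
      Real.rpow_nonneg (Finset.sum_nonneg fun t _ => hQ₃ _) _
    have b1 := pushF_nonneg (g := g) (Z := Z) (p := p₁) hQ₁ (hom g x - τ)
    have b2 := pushF_nonneg (g := g) (Z := Z) (p := p₂) hQ₂ (hom g x - 2 * τ)
    have b3 := pushF_nonneg (g := g) (Z := Z) (p := p₃) hQ₃ (hom g x - 3 * τ)
    (clear r hp₁ hp₂ hp₃ hr hu C hCt hC K₀ hK₀ hKfin hK₀nn Ω W hs₁ hs₂ hs₃ hZ₁ hZ₂ hZ₃ hW hle M hM hB hMdef hq1 hq2 J hJ hJc hJi key hx hxΩ c1 b3; gcongr)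
  have hMr : (0 : ℝ) < M := by exact_mod_cast hM
  have hqr : (16 * (5 * (q : ℝ) + 1)) ≤ 336 * M := by
    have h1 : q ≤ 4 * M := by omega
    have h2 : (q : ℝ) ≤ 4 * M := by exact_mod_cast h1
    have h3 : (1 : ℝ) ≤ M := by exact_mod_cast hM
    linarith only [h2, h3]
  have hqr0 : (0 : ℝ) < 16 * (5 * (q : ℝ) + 1) := by (clear * -; positivity)
  have hlow : ENNReal.ofReal ((M / 32 : ℝ) ^ (1 / r) * (W / (336 * M))) ≤
      (∑ x ∈ J, ENNReal.ofReal ((1 / (16 * (5 * q + 1)) : ℝ) *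
        ∑ τ : ZMod q, (pushF g Z Q₁ p₁ (hom g x - τ) *
          pushF g Z Q₂ p₂ (hom g x - 2 * τ) * pushF g Z Q₃ p₃ (hom g x - 3 * τ))) ^ r *
          ENNReal.ofReal (1 / 16)) ^ (1 / r) := by
    have h1 : ENNReal.ofReal ((M / 32 : ℝ) ^ (1 / r) * (W / (336 * M))) =
        (ENNReal.ofReal ((M / 32 : ℝ) * (W / (336 * M)) ^ r)) ^ (1 / r) := by
      rw [ENNReal.ofReal_rpow_of_nonneg (by (clear * - hM hW; positivity)) (by positivity)]
      congr 1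
      rw [Real.mul_rpow (by (clear * - hM; positivity)) (by (clear * - hW hM; positivity)), ← Real.rpow_mul (by (clear * - hW hM; positivity)),
        mul_one_div_cancel hr.ne', Real.rpow_one]
    rw [h1]
    apply ENNReal.rpow_le_rpow _ (by positivity)
    calc ENNReal.ofReal ((M / 32 : ℝ) * (W / (336 * M)) ^ r)
        ≤ ENNReal.ofReal (J.card * ((W / (336 * M)) ^ r * (1 / 16))) := by
          apply ENNReal.ofReal_le_ofReal
          have h2 : (M : ℝ) ≤ 2 * J.card := by exact_mod_cast hJc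
          have h3 : (0 : ℝ) ≤ (W / (336 * M)) ^ r := by (clear * - hW hM; positivity)
          nlinarith only [h2, h3]
      _ = ∑ x ∈ J, ENNReal.ofReal (W / (336 * M)) ^ r * ENNReal.ofReal (1 / 16) := by
          rw [Finset.sum_const, nsmul_eq_mul, ENNReal.ofReal_mul (by (clear * -; positivity)),
            ENNReal.ofReal_mul (by (clear * - hW hM; positivity)), ENNReal.ofReal_rpow_of_nonneg (by (clear * - hW hM; positivity)) hr.le,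
            ENNReal.ofReal_natCast]
      _ ≤ _ := by
          apply Finset.sum_le_sum
          intro x hx
          gcongr
          rw [one_div_mul_eq_div]
          exact div_le_div₀ (hW.trans (hterm x hx)) (hterm x hx) hqr0 hqr
  have hup : C * (4 * ∑ z, ENNReal.ofReal (pushF g Z Q₁ p₁ z) ^ p₁) ^ (1 / p₁) *
        (4 * ∑ z, ENNReal.ofReal (pushF g Z Q₂ p₂ z) ^ p₂) ^ (1 / p₂) *
        (4 * ∑ z, ENNReal.ofReal (pushF g Z Q₃ p₃ z) ^ p₃) ^ (1 / p₃) ≤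
      C * 4 ^ (1 / p₁) * 4 ^ (1 / p₂) * 4 ^ (1 / p₃) := by
    have s1 := sum_pushF_le (g := g) hQ₁ hp₁ hs₁
    have s2 := sum_pushF_le (g := g) hQ₂ hp₂ hs₂
    have s3 := sum_pushF_le (g := g) hQ₃ hp₃ hs₃
    have hh : ∀ a : ℝ≥0∞, a ≤ 1 → 4 * a ≤ 4 := fun a ha => by
      calc 4 * a ≤ 4 * 1 := by (clear * - ha; gcongr)
        _ = 4 := mul_one _
    gcongr
    · exact hh _ s1
    · exact hh _ s2
    · exact hh _ s3
  have hfin := (hlow.trans key).trans hup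
  rw [← ENNReal.ofReal_toReal hKfin, ← hK₀] at hfin
  have hfin2 : (M / 32 : ℝ) ^ (1 / r) * (W / (336 * M)) ≤ K₀ :=
    (ENNReal.ofReal_le_ofReal_iff hK₀nn).mp hfin
  have h32 : (0 : ℝ) < 32 ^ (1 / r) := by positivity
  have e1 : (M / 32 : ℝ) ^ (1 / r) * (W / (336 * M)) =
      W * (M : ℝ) ^ (1 / r - 1) / (336 * 32 ^ (1 / r)) := by
    rw [Real.div_rpow hMr.le (by norm_num), Real.rpow_sub hMr, Real.rpow_one]
    (clear * - hM; field_simp)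
  rw [e1, div_le_iff₀ (by positivity)] at hfin2
  calc W * (M : ℝ) ^ (1 / r - 1) ≤ K₀ * (336 * 32 ^ (1 / r)) := hfin2
    _ ≤ 336 * 32 ^ (1 / r) * (K₀ + 1) := by nlinarith only [h32]

end Vale.Agent.P141
end
end

section

section

open MeasureTheory Filter Topology
open scoped ENNReal SchwartzMap

namespace Vale.Agent.P141

/-- Words over `D` of a given type carry a large part of the total mass. -/
lemma exists_type {α : Type*} [DecidableEq α] (D : Finset α) (v : α → ℝ) (n : ℕ) :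
    ∃ (Ω : Finset (Fin n → α)) (V : ℝ), (∀ ω ∈ Ω, ∀ k, ω k ∈ D) ∧
      (∀ ω ∈ Ω, ∏ k, v (ω k) = V) ∧
      (∑ d ∈ D, v d) ^ n ≤ ((n : ℝ) + 1) ^ D.card * (Ω.card * V) := by
  classical
  let words : Finset (Fin n → α) := Fintype.piFinset (fun _ => D)
  let types : Finset (D → ℕ) := Fintype.piFinset (fun _ => Finset.range (n + 1))
  let θ : (Fin n → α) → (D → ℕ) := fun ω d => (Finset.univ.filter (fun k => ω k = d)).card
  have hθ : ∀ ω ∈ words, θ ω ∈ types := by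
    intro ω _
    simp only [types, Fintype.mem_piFinset, Finset.mem_range, θ]
    intro d
    have := Finset.card_filter_le (Finset.univ : Finset (Fin n)) (fun k => ω k = d)
    simp only [Finset.card_univ, Fintype.card_fin] at this
    omega
  have htot : ∑ ω ∈ words, ∏ k, v (ω k) = (∑ d ∈ D, v d) ^ n := by
    have := Finset.prod_univ_sum (fun _ : Fin n => D) (fun _ a => v a)
    rw [← this]
    simp only [Finset.prod_const, Finset.card_univ, Fintype.card_fin]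
  have hcardT : (types.card : ℝ) = ((n : ℝ) + 1) ^ D.card := by
    simp only [Fintype.card_piFinset, Finset.univ_eq_attach, Finset.card_range, Finset.prod_const, Finset.card_attach, Nat.cast_pow, Nat.cast_add, Nat.cast_one, types]
  have hne : types.Nonempty := ⟨fun _ => 0, by simp only [Fintype.mem_piFinset, Finset.mem_range, lt_add_iff_pos_left, Order.lt_add_one_iff, zero_le, implies_true, types]⟩
  obtain ⟨τ, hτ, hle⟩ : ∃ τ ∈ types, (∑ d ∈ D, v d) ^ n ≤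
      types.card * ∑ ω ∈ words.filter (fun ω => θ ω = τ), ∏ k, v (ω k) := by
    by_contra hcon
    push Not at hcon
    have h1 := Finset.sum_fiberwise_of_maps_to hθ (fun ω => ∏ k, v (ω k))
    have h2 : ∑ τ ∈ types, (types.card : ℝ) * ∑ ω ∈ words.filter (fun ω => θ ω = τ),
        ∏ k, v (ω k) < ∑ τ ∈ types, (∑ d ∈ D, v d) ^ n :=
      Finset.sum_lt_sum_of_nonempty hne fun τ hτ => hcon τ hτ
    rw [← Finset.mul_sum, h1, htot, Finset.sum_const, nsmul_eq_mul] at h2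
    exact lt_irrefl _ h2
  have hconst : ∀ ω ∈ words.filter (fun ω => θ ω = τ), ∏ k, v (ω k) = ∏ d : D, v d ^ τ d := by
    intro ω hω
    rw [Finset.mem_filter] at hω
    rw [← hω.2]
    have hmem : ∀ k ∈ (Finset.univ : Finset (Fin n)), ω k ∈ D := fun k _ =>
      Fintype.mem_piFinset.mp hω.1 k
    rw [← Finset.prod_fiberwise_of_maps_to hmem (fun k => v (ω k)),
      ← Finset.prod_coe_sort D (fun d => ∏ k with ω k = d, v (ω k))]
    apply Finset.prod_congr rfl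
    intro d _
    rw [Finset.prod_congr rfl (g := fun _ => v d)]
    · rw [Finset.prod_const]
    · intro k hk
      rw [(Finset.mem_filter.mp hk).2]
  refine ⟨words.filter (fun ω => θ ω = τ), ∏ d : D, v d ^ τ d, ?_, hconst, ?_⟩
  · intro ω hω k
    exact Fintype.mem_piFinset.mp (Finset.mem_filter.mp hω).1 k
  · rw [← hcardT]
    refine hle.trans (le_of_eq ?_)
    rw [Finset.sum_congr rfl hconst, Finset.sum_const, nsmul_eq_mul]

/-- The inner sum `∑ t, ∏ᵢ qᵢ(x - i t)^{1/pᵢ}`. -/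
noncomputable def vv (T : Finset ℤ) (q₁ q₂ q₃ : ℤ → ℝ) (p₁ p₂ p₃ : ℝ) (x : ℤ) : ℝ :=
  ∑ t ∈ T, q₁ (x - 1 * t) ^ (1 / p₁) * q₂ (x - 2 * t) ^ (1 / p₂) * q₃ (x - 3 * t) ^ (1 / p₃)

lemma sum_shift_le {T Z : Finset ℤ} {q : ℤ → ℝ} (hq : ∀ z, 0 ≤ q z) {x c : ℤ} (hc : c ≠ 0)
    (hT : ∀ t ∈ T, x - c * t ∈ Z) : ∑ t ∈ T, q (x - c * t) ≤ ∑ z ∈ Z, q z := by
  classical
  have hinj : Set.InjOn (fun t => x - c * t) (T : Set ℤ) := by
    intro a _ b _ hab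
    have h : x - c * a = x - c * b := hab
    have h2 : c * a = c * b := by linarith only [hab]
    exact mul_left_cancel₀ hc h2
  rw [← Finset.sum_image (f := q) hinj]
  apply Finset.sum_le_sum_of_subset_of_nonneg
  · intro z hz
    obtain ⟨t, ht, rfl⟩ := Finset.mem_image.mp hz
    exact hT t ht
  · exact fun z _ _ => hq z

theorem discrete_le_one {p₁ p₂ p₃ r : ℝ} (hp₁ : 0 < p₁) (hp₂ : 0 < p₂) (hp₃ : 0 < p₃)
    (hr : 0 < r) (hr1 : r < 1) (hu : 1 ≤ 1 / p₁ + 1 / p₂ + 1 / p₃)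
    {C : ℝ≥0∞} (hCt : C < ∞) (hC : BddWith p₁ p₂ p₃ r C)
    (X T Z : Finset ℤ)
    (q₁ q₂ q₃ : ℤ → ℝ) (hq₁ : ∀ z, 0 ≤ q₁ z) (hq₂ : ∀ z, 0 ≤ q₂ z) (hq₃ : ∀ z, 0 ≤ q₃ z)
    (hs₁ : ∑ z ∈ Z, q₁ z ≤ 1) (hs₂ : ∑ z ∈ Z, q₂ z ≤ 1) (hs₃ : ∑ z ∈ Z, q₃ z ≤ 1)
    (hZ₁ : ∀ x ∈ X, ∀ t ∈ T, x - 1 * t ∈ Z) (hZ₂ : ∀ x ∈ X, ∀ t ∈ T, x - 2 * t ∈ Z)
    (hZ₃ : ∀ x ∈ X, ∀ t ∈ T, x - 3 * t ∈ Z) :
    ∑ x ∈ X, vv T q₁ q₂ q₃ p₁ p₂ p₃ x ^ (1 / (1 / r - 1)) ≤ 1 := by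
  classical
  by_contra hcon
  push Not at hcon
  set c : ℝ := 1 / r - 1 with hc
  have hcpos : 0 < c := by
    rw [hc, sub_pos, lt_div_iff₀ hr]; linarith only [hr1]
  obtain ⟨K, hK, hmain⟩ := transfer_group hp₁ hp₂ hp₃ hr hu hCt hC
  have hv0 : ∀ x, 0 ≤ vv T q₁ q₂ q₃ p₁ p₂ p₃ x := fun x =>
    Finset.sum_nonneg fun t _ =>
      mul_nonneg (mul_nonneg (Real.rpow_nonneg (hq₁ _) _) (Real.rpow_nonneg (hq₂ _) _))
        (Real.rpow_nonneg (hq₃ _) _)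
  have hv1 : ∀ x ∈ X, vv T q₁ q₂ q₃ p₁ p₂ p₃ x ≤ 1 := by
    intro x hx
    refine (holder3 T (fun t => q₁ (x - 1 * t)) (fun t => q₂ (x - 2 * t))
      (fun t => q₃ (x - 3 * t)) (fun t => hq₁ _) (fun t => hq₂ _) (fun t => hq₃ _)
      (by positivity) (by positivity) (by positivity) hu).trans ?_
    have a1 := (sum_shift_le hq₁ (c := 1) (by norm_num) (hZ₁ x hx)).trans hs₁
    have a2 := (sum_shift_le hq₂ (c := 2) (by norm_num) (hZ₂ x hx)).trans hs₂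
    have a3 := (sum_shift_le hq₃ (c := 3) (by norm_num) (hZ₃ x hx)).trans hs₃
    have b1 : 0 ≤ ∑ t ∈ T, q₁ (x - 1 * t) := Finset.sum_nonneg fun t _ => hq₁ _
    have b2 : 0 ≤ ∑ t ∈ T, q₂ (x - 2 * t) := Finset.sum_nonneg fun t _ => hq₂ _
    have b3 : 0 ≤ ∑ t ∈ T, q₃ (x - 3 * t) := Finset.sum_nonneg fun t _ => hq₃ _
    exact mul_le_one₀ (mul_le_one₀ (Real.rpow_le_one b1 a1 (by positivity))
      (Real.rpow_nonneg b2 _) (Real.rpow_le_one b2 a2 (by positivity)))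
      (Real.rpow_nonneg b3 _) (Real.rpow_le_one b3 a3 (by positivity))
  set S : ℝ := ∑ x ∈ X, vv T q₁ q₂ q₃ p₁ p₂ p₃ x ^ (1 / c) with hS
  -- digits are bounded
  obtain ⟨B, hB⟩ : ∃ B : ℕ, ∀ d ∈ X, ∀ d' ∈ X, |d - d'| < (B : ℤ) := by
    refine ⟨∑ d ∈ X, 2 * d.natAbs + 1, ?_⟩
    have hb : ∀ d ∈ X, 2 * |d| ≤ ((∑ d ∈ X, 2 * d.natAbs : ℕ) : ℤ) := by
      intro d hd
      have : 2 * d.natAbs ≤ ∑ d ∈ X, 2 * d.natAbs :=
        Finset.single_le_sum (f := fun d : ℤ => 2 * d.natAbs) (fun _ _ => Nat.zero_le _) hd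
      have h2 : ((2 * d.natAbs : ℕ) : ℤ) ≤ ((∑ d ∈ X, 2 * d.natAbs : ℕ) : ℤ) := by
        exact_mod_cast this
      have h3 : ((2 * d.natAbs : ℕ) : ℤ) = 2 * |d| := by
        push_cast
        rfl
      rwa [h3] at h2
    intro d hd d' hd'
    have h1 := hb d hd
    have h2 := hb d' hd'
    have h3 : |d - d'| ≤ |d| + |d'| := abs_sub _ _
    push_cast at *
    linarith only [h3, h1, h2]
  -- growth
  have hlim : Tendsto (fun n : ℕ => (n : ℝ) ^ X.card / S ^ n) atTop (𝓝 0) :=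
    tendsto_pow_const_div_const_pow_of_one_lt _ hcon
  have hlim1 : Tendsto (fun n : ℕ => ((n : ℝ) + 1) ^ X.card / S ^ n) atTop (𝓝 0) := by
    have h1 := (tendsto_add_atTop_iff_nat 1).mpr hlim
    have h2 := h1.const_mul S
    rw [mul_zero] at h2
    refine h2.congr fun n => ?_
    have hSne : S ≠ 0 := by linarith only [hcon]
    push_cast
    rw [pow_succ]
    (clear * - hSne hcon; field_simp)
  set L : ℝ := max (K ^ (1 / c)) B + 1 with hL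
  have hLpos : 0 < L := by
    have : (0 : ℝ) ≤ max (K ^ (1 / c)) B := le_max_of_le_right (Nat.cast_nonneg _)
    linarith only [this]
  obtain ⟨n, hn⟩ : ∃ n : ℕ, ((n : ℝ) + 1) ^ X.card / S ^ n < 1 / L :=
    (hlim1.eventually_lt_const (by positivity)).exists
  have hSn : 0 < S ^ n := by (clear * - hcon; positivity)
  have hn' : L * ((n : ℝ) + 1) ^ X.card < S ^ n := by
    rw [div_lt_div_iff₀ hSn hLpos] at hn
    linarith only [hn]
  obtain ⟨Ω, V, hΩD, hΩV, hΩS⟩ := exists_type X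
    (fun x => vv T q₁ q₂ q₃ p₁ p₂ p₃ x ^ (1 / c)) n
  have hn1 : (0 : ℝ) < ((n : ℝ) + 1) ^ X.card := by (clear * -; positivity)
  have hLV : L < Ω.card * V := by
    have : L * ((n : ℝ) + 1) ^ X.card < ((n : ℝ) + 1) ^ X.card * (Ω.card * V) :=
      hn'.trans_le hΩS
    by_contra h
    push Not at h
    have h2 := mul_le_mul_of_nonneg_left h hn1.le
    linarith only [hn', hΩS, h2]
  have hΩne : Ω.Nonempty := by
    rw [Finset.nonempty_iff_ne_empty]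
    rintro rfl
    simp at hLV
    linarith only [hLpos, hLV]
  obtain ⟨ω₀, hω₀⟩ := hΩne
  have hV0 : 0 ≤ V := by
    rw [← hΩV ω₀ hω₀]
    exact Finset.prod_nonneg fun k _ => Real.rpow_nonneg (hv0 _) _
  have hV1 : V ≤ 1 := by
    rw [← hΩV ω₀ hω₀]
    apply Finset.prod_le_one
    · exact fun k _ => Real.rpow_nonneg (hv0 _) _
    · exact fun k _ => Real.rpow_le_one (hv0 _) (hv1 _ (hΩD ω₀ hω₀ k)) (by (clear * - hcpos; positivity))
  have hcard : L < Ω.card := by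
    have : (Ω.card : ℝ) * V ≤ Ω.card := mul_le_of_le_one_right (Nat.cast_nonneg _) hV1
    linarith only [hLV, this]
  have hcardpos : 0 < Ω.card := by
    have : (0 : ℝ) < Ω.card := hLpos.trans hcard
    exact_mod_cast this
  have hBcard : (B : ℤ) ≤ 2 * Ω.card := by
    have h1 : (B : ℝ) ≤ L := by
      rw [hL]; linarith only [le_max_right (K ^ (1 / c)) (B : ℝ)]
    have h2 : (B : ℝ) ≤ Ω.card := h1.trans hcard.le
    have h3 : B ≤ Ω.card := by exact_mod_cast h2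
    omega
  have hW : ∀ ω ∈ Ω, V ^ c = ∏ k, vv T q₁ q₂ q₃ p₁ p₂ p₃ (ω k) := by
    intro ω hω
    rw [← hΩV ω hω]
    rw [← Real.finsetProd_rpow _ _ (fun k _ => Real.rpow_nonneg (hv0 _) _)]
    apply Finset.prod_congr rfl
    intro k _
    rw [← Real.rpow_mul (hv0 _), one_div_mul_cancel hcpos.ne', Real.rpow_one]
  have hprod1 : ∀ q : ℤ → ℝ, (∀ z, 0 ≤ q z) → ∑ z ∈ Z, q z ≤ 1 →
      ∑ ζ ∈ Fintype.piFinset (fun _ : Fin n => Z), ∏ k, q (ζ k) ≤ 1 := by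
    intro q hq hs
    have := Finset.prod_univ_sum (fun _ : Fin n => Z) (fun _ z => q z)
    rw [← this]
    exact Finset.prod_le_one (fun _ _ => Finset.sum_nonneg fun z _ => hq z) fun _ _ => hs
  have hfinal := hmain n Ω (Fintype.piFinset (fun _ => T)) (Fintype.piFinset (fun _ => Z))
    (fun ζ => ∏ k, q₁ (ζ k)) (fun ζ => ∏ k, q₂ (ζ k)) (fun ζ => ∏ k, q₃ (ζ k)) (V ^ c)
    hcardpos
    (fun ω hω ω' hω' k => (hB _ (hΩD ω hω k) _ (hΩD ω' hω' k)).trans_le hBcard)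
    (fun ζ => Finset.prod_nonneg fun k _ => hq₁ _)
    (fun ζ => Finset.prod_nonneg fun k _ => hq₂ _)
    (fun ζ => Finset.prod_nonneg fun k _ => hq₃ _)
    (hprod1 q₁ hq₁ hs₁) (hprod1 q₂ hq₂ hs₂) (hprod1 q₃ hq₃ hs₃)
    (fun ω hω t ht => Fintype.mem_piFinset.mpr fun k =>
      hZ₁ _ (hΩD ω hω k) _ (Fintype.mem_piFinset.mp ht k))
    (fun ω hω t ht => Fintype.mem_piFinset.mpr fun k =>
      hZ₂ _ (hΩD ω hω k) _ (Fintype.mem_piFinset.mp ht k))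
    (fun ω hω t ht => Fintype.mem_piFinset.mpr fun k =>
      hZ₃ _ (hΩD ω hω k) _ (Fintype.mem_piFinset.mp ht k))
    (Real.rpow_nonneg hV0 _)
    (by
      intro ω hω
      rw [hW ω hω]
      simp only [vv]
      rw [Finset.prod_univ_sum]
      apply Finset.sum_le_sum
      intro t _
      simp only [aff]
      rw [Finset.prod_mul_distrib, Finset.prod_mul_distrib,
        Real.finsetProd_rpow _ _ (fun k _ => hq₁ _), Real.finsetProd_rpow _ _ (fun k _ => hq₂ _),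
        Real.finsetProd_rpow _ _ (fun k _ => hq₃ _)])
  have h1 : ((Ω.card : ℝ) * V) ^ c ≤ K := by
    rw [Real.mul_rpow (Nat.cast_nonneg _) hV0, mul_comm]
    exact hfinal
  have h2 : (Ω.card : ℝ) * V ≤ K ^ (1 / c) := by
    have h0 : 0 ≤ (Ω.card : ℝ) * V := mul_nonneg (Nat.cast_nonneg _) hV0
    calc (Ω.card : ℝ) * V = (((Ω.card : ℝ) * V) ^ c) ^ (1 / c) := by
          rw [← Real.rpow_mul h0, mul_one_div_cancel hcpos.ne', Real.rpow_one]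
      _ ≤ K ^ (1 / c) := Real.rpow_le_rpow (Real.rpow_nonneg h0 _) h1 (by (clear * - hcpos; positivity))
  have h3 : K ^ (1 / c) < L := by
    rw [hL]; linarith only [le_max_left (K ^ (1 / c)) (B : ℝ)]
  linarith only [hLV, h2, h3]

end Vale.Agent.P141
end
end

section

section

open MeasureTheory Filter Topology
open scoped ENNReal SchwartzMap

namespace Vale.Agent.P141

/-- Finite version in `ℝ≥0∞` for weights with total mass at most one. -/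
lemma discrete_fin {p₁ p₂ p₃ r : ℝ} (hp₁ : 0 < p₁) (hp₂ : 0 < p₂) (hp₃ : 0 < p₃)
    (hr : 0 < r) (hr1 : r < 1) (hu : 1 ≤ 1 / p₁ + 1 / p₂ + 1 / p₃)
    {C : ℝ≥0∞} (hCt : C < ∞) (hC : BddWith p₁ p₂ p₃ r C)
    (F₁ F₂ F₃ : ℤ → ℝ≥0∞) (h₁ : ∑' z, F₁ z ^ p₁ ≤ 1) (h₂ : ∑' z, F₂ z ^ p₂ ≤ 1)
    (h₃ : ∑' z, F₃ z ^ p₃ ≤ 1) (X T : Finset ℤ) :
    ∑ x ∈ X, (∑ t ∈ T, F₁ (x - 1 * t) * F₂ (x - 2 * t) * F₃ (x - 3 * t)) ^
      (1 / (1 / r - 1)) ≤ 1 := by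
  classical
  have hcpos : 0 < 1 / r - 1 := by
    rw [sub_pos, lt_div_iff₀ hr]; linarith only [hr1]
  let Z : Finset ℤ := (X ×ˢ T).image (fun d => d.1 - 1 * d.2) ∪
    (X ×ˢ T).image (fun d => d.1 - 2 * d.2) ∪ (X ×ˢ T).image (fun d => d.1 - 3 * d.2)
  have hZ₁ : ∀ x ∈ X, ∀ t ∈ T, x - 1 * t ∈ Z := fun x hx t ht => by
    simp only [Z, Finset.mem_union, Finset.mem_image, Finset.mem_product]
    exact Or.inl (Or.inl ⟨(x, t), ⟨hx, ht⟩, rfl⟩)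
  have hZ₂ : ∀ x ∈ X, ∀ t ∈ T, x - 2 * t ∈ Z := fun x hx t ht => by
    simp only [Z, Finset.mem_union, Finset.mem_image, Finset.mem_product]
    exact Or.inl (Or.inr ⟨(x, t), ⟨hx, ht⟩, rfl⟩)
  have hZ₃ : ∀ x ∈ X, ∀ t ∈ T, x - 3 * t ∈ Z := fun x hx t ht => by
    simp only [Z, Finset.mem_union, Finset.mem_image, Finset.mem_product]
    exact Or.inr ⟨(x, t), ⟨hx, ht⟩, rfl⟩
  have hfinF : ∀ (F : ℤ → ℝ≥0∞) (p : ℝ), 0 < p → ∑' z, F z ^ p ≤ 1 → ∀ z, F z ≠ ∞ := by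
    intro F p hp h z hz
    have h1 : F z ^ p ≤ 1 := (ENNReal.le_tsum z).trans h
    rw [hz, ENNReal.top_rpow_of_pos hp] at h1
    exact absurd h1 (by simp)
  have hq : ∀ (F : ℤ → ℝ≥0∞) (p : ℝ), 0 < p → ∑' z, F z ^ p ≤ 1 →
      ∑ z ∈ Z, (F z).toReal ^ p ≤ 1 := by
    intro F p hp h
    have h1 : ∑ z ∈ Z, F z ^ p ≤ 1 := (ENNReal.sum_le_tsum Z).trans h
    have h2 : ∑ z ∈ Z, (F z).toReal ^ p = (∑ z ∈ Z, F z ^ p).toReal := by
      rw [ENNReal.toReal_sum]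
      · apply Finset.sum_congr rfl
        intro z _
        rw [ENNReal.toReal_rpow]
      · intro z _
        exact ENNReal.rpow_ne_top_of_nonneg hp.le (hfinF F p hp h z)
    rw [h2]
    exact ENNReal.toReal_le_of_le_ofReal zero_le_one (by simpa only [ENNReal.ofReal_one] using h1)
  have key := discrete_le_one hp₁ hp₂ hp₃ hr hr1 hu hCt hC X T Z
    (fun z => (F₁ z).toReal ^ p₁) (fun z => (F₂ z).toReal ^ p₂) (fun z => (F₃ z).toReal ^ p₃)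
    (fun z => Real.rpow_nonneg ENNReal.toReal_nonneg _)
    (fun z => Real.rpow_nonneg ENNReal.toReal_nonneg _)
    (fun z => Real.rpow_nonneg ENNReal.toReal_nonneg _)
    (hq F₁ p₁ hp₁ h₁) (hq F₂ p₂ hp₂ h₂) (hq F₃ p₃ hp₃ h₃) hZ₁ hZ₂ hZ₃
  have hroot : ∀ (F : ℤ → ℝ≥0∞) (p : ℝ), 0 < p → ∀ z,
      ((F z).toReal ^ p) ^ (1 / p) = (F z).toReal := by
    intro F p hp z
    rw [← Real.rpow_mul ENNReal.toReal_nonneg, mul_one_div_cancel hp.ne', Real.rpow_one]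
  have hv : ∀ x, vv T (fun z => (F₁ z).toReal ^ p₁) (fun z => (F₂ z).toReal ^ p₂)
      (fun z => (F₃ z).toReal ^ p₃) p₁ p₂ p₃ x =
      (∑ t ∈ T, F₁ (x - 1 * t) * F₂ (x - 2 * t) * F₃ (x - 3 * t)).toReal := by
    intro x
    unfold vv
    rw [ENNReal.toReal_sum]
    · apply Finset.sum_congr rfl
      intro t _
      rw [hroot F₁ p₁ hp₁, hroot F₂ p₂ hp₂, hroot F₃ p₃ hp₃, ENNReal.toReal_mul,
        ENNReal.toReal_mul]
    · intro t _
      exact ENNReal.mul_ne_top (ENNReal.mul_ne_top (hfinF F₁ p₁ hp₁ h₁ _)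
        (hfinF F₂ p₂ hp₂ h₂ _)) (hfinF F₃ p₃ hp₃ h₃ _)
  simp only [hv] at key
  have hsfin : ∀ x, (∑ t ∈ T, F₁ (x - 1 * t) * F₂ (x - 2 * t) * F₃ (x - 3 * t)) ≠ ∞ := by
    intro x
    apply ENNReal.sum_ne_top.mpr
    intro t _
    exact ENNReal.mul_ne_top (ENNReal.mul_ne_top (hfinF F₁ p₁ hp₁ h₁ _)
      (hfinF F₂ p₂ hp₂ h₂ _)) (hfinF F₃ p₃ hp₃ h₃ _)
  have hs2 : (∑ x ∈ X, (∑ t ∈ T, F₁ (x - 1 * t) * F₂ (x - 2 * t) * F₃ (x - 3 * t)) ^
      (1 / (1 / r - 1))).toReal ≤ 1 := by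
    rw [ENNReal.toReal_sum]
    · simpa only [← ENNReal.toReal_rpow] using key
    · intro x _
      exact ENNReal.rpow_ne_top_of_nonneg (by (clear * - hcpos; positivity)) (hsfin x)
  have hne : (∑ x ∈ X, (∑ t ∈ T, F₁ (x - 1 * t) * F₂ (x - 2 * t) * F₃ (x - 3 * t)) ^
      (1 / (1 / r - 1))) ≠ ∞ := by
    apply ENNReal.sum_ne_top.mpr
    intro x _
    exact ENNReal.rpow_ne_top_of_nonneg (by (clear * - hcpos; positivity)) (hsfin x)
  rw [← ENNReal.ofReal_toReal hne]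
  exact ENNReal.ofReal_le_one.mpr hs2

lemma discrete_tsum {p₁ p₂ p₃ r : ℝ} (hp₁ : 0 < p₁) (hp₂ : 0 < p₂) (hp₃ : 0 < p₃)
    (hr : 0 < r) (hr1 : r < 1) (hu : 1 ≤ 1 / p₁ + 1 / p₂ + 1 / p₃)
    {C : ℝ≥0∞} (hCt : C < ∞) (hC : BddWith p₁ p₂ p₃ r C)
    (F₁ F₂ F₃ : ℤ → ℝ≥0∞) (h₁ : ∑' z, F₁ z ^ p₁ ≤ 1) (h₂ : ∑' z, F₂ z ^ p₂ ≤ 1)
    (h₃ : ∑' z, F₃ z ^ p₃ ≤ 1) :
    ∑' x, (∑' t, F₁ (x - 1 * t) * F₂ (x - 2 * t) * F₃ (x - 3 * t)) ^
      (1 / (1 / r - 1)) ≤ 1 := by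
  have hcpos : 0 < 1 / r - 1 := by
    rw [sub_pos, lt_div_iff₀ hr]; linarith only [hr1]
  rw [ENNReal.tsum_eq_iSup_sum]
  apply iSup_le
  intro X
  have hlim : Tendsto (fun T : Finset ℤ => ∑ x ∈ X,
      (∑ t ∈ T, F₁ (x - 1 * t) * F₂ (x - 2 * t) * F₃ (x - 3 * t)) ^ (1 / (1 / r - 1)))
      atTop (𝓝 (∑ x ∈ X, (∑' t, F₁ (x - 1 * t) * F₂ (x - 2 * t) * F₃ (x - 3 * t)) ^
        (1 / (1 / r - 1)))) := by
    apply tendsto_finsetSum
    intro x _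
    exact (ENNReal.continuous_rpow_const.tendsto _).comp ENNReal.summable.hasSum
  exact le_of_tendsto' hlim fun T => discrete_fin hp₁ hp₂ hp₃ hr hr1 hu hCt hC F₁ F₂ F₃ h₁ h₂ h₃ X T

end Vale.Agent.P141
end
end

section

section

open MeasureTheory Filter Topology
open scoped ENNReal SchwartzMap

namespace Vale.Agent.P141

lemma lintegral_gauss {b : ℝ} (hb : 0 < b) (θ : ℝ) :
    ∫⁻ y : ℝ, ENNReal.ofReal (Real.exp (-b * (y - θ) ^ 2)) = ENNReal.ofReal (Real.sqrt (Real.pi / b)) := by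
  rw [← ofReal_integral_eq_lintegral_ofReal]
  · rw [integral_sub_right_eq_self (fun y : ℝ => Real.exp (-b * y ^ 2)) θ, integral_gaussian]
  · exact (integrable_exp_neg_mul_sq hb).comp_sub_right θ
  · exact Filter.Eventually.of_forall fun y => (Real.exp_pos _).le

lemma lintegral_eq_tsum_Ioc (f : ℝ → ℝ≥0∞) :
    ∫⁻ y : ℝ, f y = ∑' i : ℤ, ∫⁻ y in Set.Ioc (-1 / 2 + (i : ℝ)) (-1 / 2 + i + 1), f y := by
  rw [← lintegral_iUnion (fun i : ℤ => measurableSet_Ioc)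
    (Set.pairwise_disjoint_Ioc_add_intCast (-1 / 2 : ℝ)), iUnion_Ioc_add_intCast, Measure.restrict_univ]

lemma tsum_gauss_ge {α η : ℝ} (hα : 0 < α) (hη : 0 < η) (θ : ℝ) :
    ENNReal.ofReal (Real.exp (-α * (1 + 1 / η) / 4) * Real.sqrt (Real.pi / (α * (1 + η)))) ≤
      ∑' i : ℤ, ENNReal.ofReal (Real.exp (-α * ((i : ℝ) - θ) ^ 2)) := by
  rw [ENNReal.ofReal_mul (Real.exp_pos _).le,
    ← lintegral_gauss (b := α * (1 + η)) (by positivity) θ, ← lintegral_const_mul']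
  swap
  · exact ENNReal.ofReal_ne_top
  rw [lintegral_eq_tsum_Ioc]
  apply ENNReal.tsum_le_tsum
  intro i
  calc ∫⁻ y in Set.Ioc (-1 / 2 + (i : ℝ)) (-1 / 2 + i + 1),
        ENNReal.ofReal (Real.exp (-α * (1 + 1 / η) / 4)) *
          ENNReal.ofReal (Real.exp (-(α * (1 + η)) * (y - θ) ^ 2))
      ≤ ∫⁻ y in Set.Ioc (-1 / 2 + (i : ℝ)) (-1 / 2 + i + 1),
          ENNReal.ofReal (Real.exp (-α * ((i : ℝ) - θ) ^ 2)) := by
        apply setLIntegral_mono_ae' measurableSet_Ioc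
        refine Filter.Eventually.of_forall fun y hy => ?_
        rw [← ENNReal.ofReal_mul (Real.exp_pos _).le, ← Real.exp_add]
        apply ENNReal.ofReal_le_ofReal
        apply Real.exp_le_exp.mpr
        have h1 : ((i : ℝ) - y) ^ 2 ≤ 1 / 4 := by
          have := hy.1
          have := hy.2
          nlinarith
        have h2 : ((i : ℝ) - θ) ^ 2 ≤ (1 + η) * (y - θ) ^ 2 + (1 + 1 / η) * ((i : ℝ) - y) ^ 2 := by
          have h3 : 0 ≤ (η * (y - θ) - ((i : ℝ) - y)) ^ 2 / η := by positivity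
          have h4 : (η * (y - θ) - ((i : ℝ) - y)) ^ 2 / η =
              η * (y - θ) ^ 2 - 2 * (y - θ) * ((i : ℝ) - y) + 1 / η * ((i : ℝ) - y) ^ 2 := by
            field_simp
            ring
          linarith
        have h5 : 0 ≤ 1 + 1 / η := by positivity
        have h6 : (1 + 1 / η) * ((i : ℝ) - y) ^ 2 ≤ (1 + 1 / η) / 4 := by nlinarith only [h1, h5]
        have h7 : ((i : ℝ) - θ) ^ 2 ≤ (1 + η) * (y - θ) ^ 2 + (1 + 1 / η) / 4 := by linarith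
        have h8 := mul_le_mul_of_nonneg_left h7 hα.le
        calc -α * (1 + 1 / η) / 4 + -(α * (1 + η)) * (y - θ) ^ 2
            = -(α * ((1 + η) * (y - θ) ^ 2 + (1 + 1 / η) / 4)) := by ring
          _ ≤ -(α * ((i : ℝ) - θ) ^ 2) := by linarith only [h8]
          _ = -α * ((i : ℝ) - θ) ^ 2 := by ring
    _ = ENNReal.ofReal (Real.exp (-α * ((i : ℝ) - θ) ^ 2)) := by
        rw [setLIntegral_const, Real.volume_Ioc]
        have : (-1 / 2 + (i : ℝ) + 1 - (-1 / 2 + i)) = 1 := by ring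
        rw [this, ENNReal.ofReal_one, mul_one]

lemma tsum_gauss_le {α η : ℝ} (hα : 0 < α) (hη : 0 < η) :
    ∑' i : ℤ, ENNReal.ofReal (Real.exp (-α * (i : ℝ) ^ 2)) ≤
      ENNReal.ofReal (Real.exp (α / (4 * η)) * Real.sqrt (Real.pi * (1 + η) / α)) := by
  have e0 : Real.pi * (1 + η) / α = Real.pi / (α / (1 + η)) := by
    field_simp
  rw [e0, ENNReal.ofReal_mul (Real.exp_pos _).le,
    ← lintegral_gauss (b := α / (1 + η)) (by positivity) 0, ← lintegral_const_mul']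
  swap
  · exact ENNReal.ofReal_ne_top
  rw [lintegral_eq_tsum_Ioc]
  apply ENNReal.tsum_le_tsum
  intro i
  calc ENNReal.ofReal (Real.exp (-α * (i : ℝ) ^ 2))
      = ∫⁻ y in Set.Ioc (-1 / 2 + (i : ℝ)) (-1 / 2 + i + 1),
          ENNReal.ofReal (Real.exp (-α * (i : ℝ) ^ 2)) := by
        rw [setLIntegral_const, Real.volume_Ioc]
        have : (-1 / 2 + (i : ℝ) + 1 - (-1 / 2 + i)) = 1 := by ring
        rw [this, ENNReal.ofReal_one, mul_one]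
    _ ≤ ∫⁻ y in Set.Ioc (-1 / 2 + (i : ℝ)) (-1 / 2 + i + 1),
        ENNReal.ofReal (Real.exp (α / (4 * η))) *
          ENNReal.ofReal (Real.exp (-(α / (1 + η)) * (y - 0) ^ 2)) := by
        apply setLIntegral_mono_ae' measurableSet_Ioc
        refine Filter.Eventually.of_forall fun y hy => ?_
        rw [← ENNReal.ofReal_mul (Real.exp_pos _).le, ← Real.exp_add]
        apply ENNReal.ofReal_le_ofReal
        apply Real.exp_le_exp.mpr
        rw [sub_zero]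
        have h1 : (y - (i : ℝ)) ^ 2 ≤ 1 / 4 := by
          have := hy.1
          have := hy.2
          (clear α η hα hη e0; nlinarith)
        have h2 : y ^ 2 ≤ (1 + η) * (i : ℝ) ^ 2 + (1 + 1 / η) * (y - i) ^ 2 := by
          have h3 : 0 ≤ (η * i - (y - i)) ^ 2 / η := by (clear * - hη; positivity)
          have h4 : (η * i - (y - i)) ^ 2 / η =
              η * (i : ℝ) ^ 2 - 2 * i * (y - i) + 1 / η * (y - i) ^ 2 := by
            field_simp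
            ring
          linarith
        have h5 : 0 ≤ 1 + 1 / η := by positivity
        have h6 : (1 + 1 / η) * (y - i) ^ 2 ≤ (1 + 1 / η) / 4 := by nlinarith only [h1, h5]
        have h7 : y ^ 2 ≤ (1 + η) * (i : ℝ) ^ 2 + (1 + 1 / η) / 4 := by linarith only [h2, h6]
        have h8 : y ^ 2 / (1 + η) ≤ (i : ℝ) ^ 2 + 1 / (4 * η) := by
          rw [div_le_iff₀ (by positivity)]
          calc y ^ 2 ≤ (1 + η) * (i : ℝ) ^ 2 + (1 + 1 / η) / 4 := h7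
            _ = ((i : ℝ) ^ 2 + 1 / (4 * η)) * (1 + η) := by
              field_simp
              ring
        have h9 := mul_le_mul_of_nonneg_left h8 hα.le
        calc -α * (i : ℝ) ^ 2 = -(α * ((i : ℝ) ^ 2 + 1 / (4 * η))) + α / (4 * η) := by
              field_simp
              ring
          _ ≤ -(α * (y ^ 2 / (1 + η))) + α / (4 * η) := by linarith only [h9]
          _ = α / (4 * η) + -(α / (1 + η)) * y ^ 2 := by
              field_simp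
              ring

end Vale.Agent.P141
end
end

section

section

open MeasureTheory Filter Topology
open scoped ENNReal SchwartzMap

namespace Vale.Agent.P141

/-- The total mass of a discrete Gaussian. -/
noncomputable def ZZ (α : ℝ) : ℝ≥0∞ := ∑' i : ℤ, ENNReal.ofReal (Real.exp (-α * (i : ℝ) ^ 2))

lemma ZZ_ne_zero (α : ℝ) : ZZ α ≠ 0 := by
  have h : ENNReal.ofReal (Real.exp (-α * ((0 : ℤ) : ℝ) ^ 2)) ≤ ZZ α := ENNReal.le_tsum 0
  intro h0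
  rw [h0] at h
  simp at h

lemma ZZ_ne_top {α : ℝ} (hα : 0 < α) : ZZ α ≠ ∞ :=
  ((tsum_gauss_le hα one_pos).trans_lt ENNReal.ofReal_lt_top).ne

/-- The normalised discrete Gaussian to the power `1/p`. -/
noncomputable def hh (α u : ℝ) (i : ℤ) : ℝ≥0∞ :=
  ENNReal.ofReal (Real.exp (-(α * u) * (i : ℝ) ^ 2)) * (ZZ α ^ u)⁻¹

lemma tsum_hh_rpow {α p : ℝ} (hα : 0 < α) (hp : 0 < p) :
    ∑' i : ℤ, hh α (1 / p) i ^ p ≤ 1 := by
  have e : ∀ i : ℤ, hh α (1 / p) i ^ p =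
      ENNReal.ofReal (Real.exp (-α * (i : ℝ) ^ 2)) * (ZZ α)⁻¹ := by
    intro i
    unfold hh
    rw [ENNReal.mul_rpow_of_nonneg _ _ hp.le, ENNReal.inv_rpow, ← ENNReal.rpow_mul,
      one_div_mul_cancel hp.ne', ENNReal.rpow_one,
      ENNReal.ofReal_rpow_of_nonneg (Real.exp_pos _).le hp.le, ← Real.exp_mul]
    congr 3
    field_simp
  simp only [e]
  rw [ENNReal.tsum_mul_right]
  exact (ENNReal.mul_inv_cancel (ZZ_ne_zero α) (ZZ_ne_top hα)).le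

lemma two_mul_injective : Function.Injective (fun i : ℤ => 2 * i) := fun a b h => by
  have h' : 2 * a = 2 * b := h
  omega

lemma tsum_extend_rpow {h : ℤ → ℝ≥0∞} {p : ℝ} (hp : 0 < p) :
    ∑' z, (Function.extend (fun i : ℤ => 2 * i) h 0 z) ^ p = ∑' i, h i ^ p := by
  have e : ∀ z, (Function.extend (fun i : ℤ => 2 * i) h 0 z) ^ p =
      Function.extend (fun i : ℤ => 2 * i) (fun i => h i ^ p) 0 z := by
    intro z
    by_cases hz : ∃ i, (fun i : ℤ => 2 * i) i = z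
    · obtain ⟨i, rfl⟩ := hz
      rw [two_mul_injective.extend_apply, two_mul_injective.extend_apply]
    · rw [Function.extend_apply' _ _ _ hz, Function.extend_apply' _ _ _ hz]
      simp [hp]
  simp only [e]
  exact tsum_extend_zero two_mul_injective _

/-- Gaussian test of the discrete inequality. -/
lemma gauss_test {p₁ p₂ p₃ r : ℝ} (hp₁ : 0 < p₁) (hp₂ : 0 < p₂) (hp₃ : 0 < p₃)
    (hr : 0 < r) (hr1 : r < 1) (hu : 1 ≤ 1 / p₁ + 1 / p₂ + 1 / p₃)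
    {C : ℝ≥0∞} (hCt : C < ∞) (hC : BddWith p₁ p₂ p₃ r C)
    {a₁ a₂ a₃ : ℝ} (ha₁ : 0 < a₁) (ha₂ : 0 < a₂) (ha₃ : 0 < a₃) {A D : ℝ}
    (hA : A = a₁ * (1 / p₁) + 16 * (a₂ * (1 / p₂)) + 9 * (a₃ * (1 / p₃)))
    (hD : D = a₁ * (1 / p₁) * (a₂ * (1 / p₂)) + a₁ * (1 / p₁) * (a₃ * (1 / p₃)) +
      a₂ * (1 / p₂) * (a₃ * (1 / p₃))) {s η : ℝ} (hs : s = 1 / (1 / r - 1)) (hη : 0 < η) :
    (Real.exp (-A * (1 + 1 / η) / 4) * Real.sqrt (Real.pi / (A * (1 + η)))) ^ s *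
      (Real.exp (-(s * (D / A)) * (1 + 1 / η) / 4) *
        Real.sqrt (Real.pi / (s * (D / A) * (1 + η)))) ≤
      ((Real.exp (a₁ / (4 * η)) * Real.sqrt (Real.pi * (1 + η) / a₁)) ^ (1 / p₁) *
        (Real.exp (a₂ / (4 * η)) * Real.sqrt (Real.pi * (1 + η) / a₂)) ^ (1 / p₂) *
        (Real.exp (a₃ / (4 * η)) * Real.sqrt (Real.pi * (1 + η) / a₃)) ^ (1 / p₃)) ^ s := by
  have hcpos : 0 < 1 / r - 1 := by
    rw [sub_pos, lt_div_iff₀ hr]; linarith only [hr1]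
  have hspos : 0 < s := by rw [hs]; (clear * - hcpos; positivity)
  have hApos : 0 < A := by rw [hA]; positivity
  have hDpos : 0 < D := by rw [hD]; positivity
  set G : ℝ := Real.exp (-A * (1 + 1 / η) / 4) * Real.sqrt (Real.pi / (A * (1 + η))) with hG
  set H : ℝ := Real.exp (-(s * (D / A)) * (1 + 1 / η) / 4) *
        Real.sqrt (Real.pi / (s * (D / A) * (1 + η))) with hH
  have hGpos : 0 < G := by positivity
  have hHpos : 0 < H := by (clear * - hspos hDpos hApos hη; positivity)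
  have key := discrete_tsum hp₁ hp₂ hp₃ hr hr1 hu hCt hC
    (Function.extend (fun i : ℤ => 2 * i) (hh a₁ (1 / p₁)) 0) (hh a₂ (1 / p₂))
    (Function.extend (fun i : ℤ => 2 * i) (hh a₃ (1 / p₃)) 0)
    ((tsum_extend_rpow hp₁).trans_le (tsum_hh_rpow ha₁ hp₁)) (tsum_hh_rpow ha₂ hp₂)
    ((tsum_extend_rpow hp₃).trans_le (tsum_hh_rpow ha₃ hp₃))
  rw [← hs] at key
  set Y : ℝ≥0∞ := ZZ a₁ ^ (1 / p₁) * ZZ a₂ ^ (1 / p₂) * ZZ a₃ ^ (1 / p₃) with hY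
  have hYinv : Y⁻¹ = (ZZ a₁ ^ (1 / p₁))⁻¹ * (ZZ a₂ ^ (1 / p₂))⁻¹ * (ZZ a₃ ^ (1 / p₃))⁻¹ := by
    have n0 : ∀ a p : ℝ, 0 < a → 0 < p → ZZ a ^ (1 / p) ≠ 0 := fun a p ha hp =>
      (ENNReal.rpow_pos (pos_iff_ne_zero.mpr (ZZ_ne_zero a)) (ZZ_ne_top ha)).ne'
    have nt : ∀ a p : ℝ, 0 < a → 0 < p → ZZ a ^ (1 / p) ≠ ∞ := fun a p ha hp =>
      ENNReal.rpow_ne_top_of_nonneg (by positivity) (ZZ_ne_top ha)
    rw [hY, ENNReal.mul_inv, ENNReal.mul_inv]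
    · exact Or.inl (n0 _ _ ha₁ hp₁)
    · exact Or.inl (nt _ _ ha₁ hp₁)
    · exact Or.inl (mul_ne_zero (n0 _ _ ha₁ hp₁) (n0 _ _ ha₂ hp₂))
    · exact Or.inl (ENNReal.mul_ne_top (nt _ _ ha₁ hp₁) (nt _ _ ha₂ hp₂))
  have hinner : ∀ x : ℤ, ENNReal.ofReal (Real.exp (-(D / A) * (x : ℝ) ^ 2)) *
      (ENNReal.ofReal G * Y⁻¹) ≤
      ∑' t, Function.extend (fun i : ℤ => 2 * i) (hh a₁ (1 / p₁)) 0 (x - 1 * t) *
        hh a₂ (1 / p₂) (x - 2 * t) *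
        Function.extend (fun i : ℤ => 2 * i) (hh a₃ (1 / p₃)) 0 (x - 3 * t) := by
    intro x
    have hinj : Function.Injective (fun i : ℤ => x - 2 * i) := fun a b h => by
      have h' : x - 2 * a = x - 2 * b := h
      omega
    refine le_trans ?_ (ENNReal.tsum_comp_le_tsum_of_injective hinj _)
    have hterm : ∀ i : ℤ,
        Function.extend (fun i : ℤ => 2 * i) (hh a₁ (1 / p₁)) 0 (x - 1 * (x - 2 * i)) *
        hh a₂ (1 / p₂) (x - 2 * (x - 2 * i)) *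
        Function.extend (fun i : ℤ => 2 * i) (hh a₃ (1 / p₃)) 0 (x - 3 * (x - 2 * i)) =
        ENNReal.ofReal (Real.exp (-(D / A) * (x : ℝ) ^ 2)) *
          (ENNReal.ofReal (Real.exp (-A * ((i : ℝ) -
            (4 * (a₂ * (1 / p₂)) + 3 * (a₃ * (1 / p₃))) / A * x) ^ 2)) * Y⁻¹) := by
      intro i
      have e1 : x - 1 * (x - 2 * i) = (fun i : ℤ => 2 * i) i := by ring
      have e3 : x - 3 * (x - 2 * i) = (fun i : ℤ => 2 * i) (3 * i - x) := by ring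
      rw [e1, e3, two_mul_injective.extend_apply, two_mul_injective.extend_apply, hYinv]
      unfold hh
      have hexp : Real.exp (-(D / A) * (x : ℝ) ^ 2) * Real.exp (-A * ((i : ℝ) -
            (4 * (a₂ * (1 / p₂)) + 3 * (a₃ * (1 / p₃))) / A * x) ^ 2) =
          Real.exp (-(a₁ * (1 / p₁)) * (i : ℝ) ^ 2) *
          Real.exp (-(a₂ * (1 / p₂)) * ((x - 2 * (x - 2 * i) : ℤ) : ℝ) ^ 2) *
          Real.exp (-(a₃ * (1 / p₃)) * ((3 * i - x : ℤ) : ℝ) ^ 2) := by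
        rw [← Real.exp_add, ← Real.exp_add, ← Real.exp_add]
        congr 1
        push_cast
        have hAne : A ≠ 0 := hApos.ne'
        set v₁ := a₁ * (1 / p₁)
        set v₂ := a₂ * (1 / p₂)
        set v₃ := a₃ * (1 / p₃)
        field_simp
        rw [hD, hA]
        ring
      calc ENNReal.ofReal (Real.exp (-(a₁ * (1 / p₁)) * (i : ℝ) ^ 2)) * (ZZ a₁ ^ (1 / p₁))⁻¹ *
            (ENNReal.ofReal (Real.exp (-(a₂ * (1 / p₂)) * ((x - 2 * (x - 2 * i) : ℤ) : ℝ) ^ 2)) *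
              (ZZ a₂ ^ (1 / p₂))⁻¹) *
            (ENNReal.ofReal (Real.exp (-(a₃ * (1 / p₃)) * ((3 * i - x : ℤ) : ℝ) ^ 2)) *
              (ZZ a₃ ^ (1 / p₃))⁻¹)
          = (ENNReal.ofReal (Real.exp (-(a₁ * (1 / p₁)) * (i : ℝ) ^ 2)) *
              ENNReal.ofReal (Real.exp (-(a₂ * (1 / p₂)) *
                ((x - 2 * (x - 2 * i) : ℤ) : ℝ) ^ 2)) *
              ENNReal.ofReal (Real.exp (-(a₃ * (1 / p₃)) * ((3 * i - x : ℤ) : ℝ) ^ 2))) *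
            ((ZZ a₁ ^ (1 / p₁))⁻¹ * (ZZ a₂ ^ (1 / p₂))⁻¹ * (ZZ a₃ ^ (1 / p₃))⁻¹) := by ring
        _ = _ := by
          rw [← ENNReal.ofReal_mul (Real.exp_pos _).le, ← ENNReal.ofReal_mul (by positivity),
            ← hexp, ENNReal.ofReal_mul (Real.exp_pos _).le, mul_assoc]
    simp only [hterm]
    rw [ENNReal.tsum_mul_left, ENNReal.tsum_mul_right]
    gcongr
    exact tsum_gauss_ge hApos hη _
  have hsum : ENNReal.ofReal H * (ENNReal.ofReal G * Y⁻¹) ^ s ≤ 1 := by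
    refine le_trans ?_ key
    calc ENNReal.ofReal H * (ENNReal.ofReal G * Y⁻¹) ^ s
        ≤ (∑' x : ℤ, ENNReal.ofReal (Real.exp (-(s * (D / A)) * ((x : ℝ) - 0) ^ 2))) *
          (ENNReal.ofReal G * Y⁻¹) ^ s := by
          gcongr
          exact tsum_gauss_ge (by (clear * - hspos hDpos hApos; positivity)) hη 0
      _ = ∑' x : ℤ, (ENNReal.ofReal (Real.exp (-(D / A) * (x : ℝ) ^ 2)) *
            (ENNReal.ofReal G * Y⁻¹)) ^ s := by
          rw [← ENNReal.tsum_mul_right]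
          apply tsum_congr
          intro x
          rw [ENNReal.mul_rpow_of_nonneg (ENNReal.ofReal (Real.exp (-(D / A) * (x : ℝ) ^ 2)))
            (ENNReal.ofReal G * Y⁻¹) hspos.le,
            ENNReal.ofReal_rpow_of_nonneg (Real.exp_pos _).le hspos.le, ← Real.exp_mul]
          congr 3
          rw [sub_zero]; ring
      _ ≤ _ := by
          apply ENNReal.tsum_le_tsum
          intro x
          exact ENNReal.rpow_le_rpow (hinner x) hspos.le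
  -- bound on Y
  have hYle : Y ≤ ENNReal.ofReal
      ((Real.exp (a₁ / (4 * η)) * Real.sqrt (Real.pi * (1 + η) / a₁)) ^ (1 / p₁) *
        (Real.exp (a₂ / (4 * η)) * Real.sqrt (Real.pi * (1 + η) / a₂)) ^ (1 / p₂) *
        (Real.exp (a₃ / (4 * η)) * Real.sqrt (Real.pi * (1 + η) / a₃)) ^ (1 / p₃)) := by
    rw [ENNReal.ofReal_mul (by (clear * - hη ha₁ ha₂; positivity)), ENNReal.ofReal_mul (by positivity),
      ← ENNReal.ofReal_rpow_of_nonneg (by positivity) (by positivity),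
      ← ENNReal.ofReal_rpow_of_nonneg (by positivity) (by positivity),
      ← ENNReal.ofReal_rpow_of_nonneg (by positivity) (by positivity), hY]
    have z1 : ZZ a₁ ≤ _ := tsum_gauss_le ha₁ hη
    have z2 : ZZ a₂ ≤ _ := tsum_gauss_le ha₂ hη
    have z3 : ZZ a₃ ≤ _ := tsum_gauss_le ha₃ hη
    (clear * - z1 hp₁ z2 hp₂ z3 hp₃; gcongr)
  set B : ℝ := (Real.exp (a₁ / (4 * η)) * Real.sqrt (Real.pi * (1 + η) / a₁)) ^ (1 / p₁) *
        (Real.exp (a₂ / (4 * η)) * Real.sqrt (Real.pi * (1 + η) / a₂)) ^ (1 / p₂) *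
        (Real.exp (a₃ / (4 * η)) * Real.sqrt (Real.pi * (1 + η) / a₃)) ^ (1 / p₃) with hB
  have hBpos : 0 < B := by (clear * - hη ha₁ ha₂ ha₃; positivity)
  have hsum2 : ENNReal.ofReal (H * (G * B⁻¹) ^ s) ≤ 1 := by
    refine le_trans ?_ hsum
    rw [ENNReal.ofReal_mul hHpos.le, ← ENNReal.ofReal_rpow_of_nonneg (by (clear * - hApos hη ha₁ ha₂ ha₃; positivity)) hspos.le,
      ENNReal.ofReal_mul hGpos.le, ENNReal.ofReal_inv_of_pos hBpos]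
    (clear * - hYle hspos; gcongr)
  have hsum3 : H * (G * B⁻¹) ^ s ≤ 1 := by
    rwa [ENNReal.ofReal_le_one] at hsum2
  rw [Real.mul_rpow hGpos.le (by (clear * - hη ha₁ ha₂ ha₃; positivity)), Real.inv_rpow hBpos.le] at hsum3
  have hBs : 0 < B ^ s := by (clear * - hη ha₁ ha₂ ha₃; positivity)
  calc G ^ s * H = H * (G ^ s * (B ^ s)⁻¹) * B ^ s := by (clear * - hBpos hHpos hGpos; field_simp)
    _ ≤ 1 * B ^ s := by (clear * - hsum3 hη ha₁ ha₂ ha₃; gcongr)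
    _ = B ^ s := one_mul _

end Vale.Agent.P141
end
end

section

section

open MeasureTheory Filter Topology
open scoped ENNReal SchwartzMap

namespace Vale.Agent.P141

lemma log_GG {A η : ℝ} (hA : 0 < A) (hη : 0 < η) :
    Real.log (Real.exp (-A * (1 + 1 / η) / 4) * Real.sqrt (Real.pi / (A * (1 + η)))) =
      -A * (1 + 1 / η) / 4 + (Real.log Real.pi - Real.log A - Real.log (1 + η)) / 2 := by
  have hπ := Real.pi_pos
  rw [Real.log_mul (Real.exp_pos _).ne' (by positivity), Real.log_exp,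
    Real.log_sqrt (by positivity), Real.log_div hπ.ne' (by positivity),
    Real.log_mul hA.ne' (by positivity)]
  ring

lemma log_BB {a η : ℝ} (ha : 0 < a) (hη : 0 < η) :
    Real.log (Real.exp (a / (4 * η)) * Real.sqrt (Real.pi * (1 + η) / a)) =
      a / (4 * η) + (Real.log Real.pi + Real.log (1 + η) - Real.log a) / 2 := by
  have hπ := Real.pi_pos
  rw [Real.log_mul (Real.exp_pos _).ne' (by positivity), Real.log_exp,
    Real.log_sqrt (by positivity), Real.log_div (by positivity) ha.ne',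
    Real.log_mul hπ.ne' (by positivity)]

lemma log_prod3 {B₁ B₂ B₃ u₁ u₂ u₃ s : ℝ} (h₁ : 0 < B₁) (h₂ : 0 < B₂) (h₃ : 0 < B₃) :
    Real.log ((B₁ ^ u₁ * B₂ ^ u₂ * B₃ ^ u₃) ^ s) =
      s * (u₁ * Real.log B₁ + u₂ * Real.log B₂ + u₃ * Real.log B₃) := by
  rw [Real.log_rpow (by positivity), Real.log_mul (by positivity) (by positivity),
    Real.log_mul (by positivity) (by positivity), Real.log_rpow h₁, Real.log_rpow h₂,
    Real.log_rpow h₃]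

lemma log_prod2 {G H s : ℝ} (h₁ : 0 < G) (h₂ : 0 < H) :
    Real.log (G ^ s * H) = s * Real.log G + Real.log H := by
  rw [Real.log_mul (by positivity) h₂.ne', Real.log_rpow h₁]

lemma alg_step {s c u₁ u₂ u₃ a₁ a₂ a₃ A Q Lp Lg L lA lD lc l₁ l₂ l₃ η : ℝ} (hsc : s * c = 1)
    (hc : 0 < c) (hη : 0 < η) (hη1 : η ≤ 1) (hsum : u₁ + u₂ + u₃ = 1 + c) (hL : L ≤ η)
    (hA : 0 < A) (hQ : 0 < Q)
    (hl : s * (-(η ^ 2 * A) * (1 + 1 / η) / 4 + (Lp - (Lg + lA) - L) / 2) +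
        (-(s * (η ^ 2 * Q)) * (1 + 1 / η) / 4 + (Lp - (-lc + (Lg + (lD - lA))) - L) / 2) ≤
      s * (u₁ * (η ^ 2 * a₁ / (4 * η) + (Lp + L - (Lg + l₁)) / 2) +
        u₂ * (η ^ 2 * a₂ / (4 * η) + (Lp + L - (Lg + l₂)) / 2) +
        u₃ * (η ^ 2 * a₃ / (4 * η) + (Lp + L - (Lg + l₃)) / 2))) :
    (c - 1) * lA + c * lc + (u₁ * l₁ + u₂ * l₂ + u₃ * l₃) - c * lD ≤
      ((u₁ * a₁ + u₂ * a₂ + u₃ * a₃) / 2 + 2 * (1 + c) + (A + Q)) * η := by
  have hηne : η ≠ 0 := hη.ne'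
  have h4 : ∀ a : ℝ, η ^ 2 * a / (4 * η) = a * η / 4 := by
    intro a; (clear * - hηne; field_simp)
  have h5 : ∀ B : ℝ, -(η ^ 2 * B) * (1 + 1 / η) / 4 = -(B * (η ^ 2 + η)) / 4 := by
    intro B; field_simp
  have h6 : -(s * (η ^ 2 * Q)) * (1 + 1 / η) / 4 = s * (-(Q * (η ^ 2 + η)) / 4) := by
    rw [← h5 Q]; ring
  rw [h4, h4, h4, h5, h6] at hl
  have hl2 := mul_le_mul_of_nonneg_left hl (by positivity : (0 : ℝ) ≤ 2 * c)
  have e1 : 2 * c * (s * (-(A * (η ^ 2 + η)) / 4 + (Lp - (Lg + lA) - L) / 2) +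
        (s * (-(Q * (η ^ 2 + η)) / 4) + (Lp - (-lc + (Lg + (lD - lA))) - L) / 2)) =
        -(A * (η ^ 2 + η)) / 2 + (Lp - (Lg + lA) - L) - (Q * (η ^ 2 + η)) / 2 +
          c * (Lp - (-lc + (Lg + (lD - lA))) - L) := by
    linear_combination (2 * (-(A * (η ^ 2 + η)) / 4 + (Lp - (Lg + lA) - L) / 2) -
        (Q * (η ^ 2 + η)) / 2) * hsc
  have e2 : 2 * c * (s * (u₁ * (a₁ * η / 4 + (Lp + L - (Lg + l₁)) / 2) +
        u₂ * (a₂ * η / 4 + (Lp + L - (Lg + l₂)) / 2) +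
        u₃ * (a₃ * η / 4 + (Lp + L - (Lg + l₃)) / 2))) =
        (u₁ * a₁ + u₂ * a₂ + u₃ * a₃) * η / 2 + (u₁ + u₂ + u₃) * (Lp + L - Lg) -
          (u₁ * l₁ + u₂ * l₂ + u₃ * l₃) := by
    linear_combination (2 * (u₁ * (a₁ * η / 4 + (Lp + L - (Lg + l₁)) / 2) +
        u₂ * (a₂ * η / 4 + (Lp + L - (Lg + l₂)) / 2) +
        u₃ * (a₃ * η / 4 + (Lp + L - (Lg + l₃)) / 2))) * hsc
  rw [e1, e2, hsum] at hl2
  have h7 : 2 * (1 + c) * L ≤ 2 * (1 + c) * η := by (clear * - hL hc; gcongr)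
  have h8 : (A + Q) * (η ^ 2 + η) / 2 ≤ (A + Q) * η := by
    have : η ^ 2 ≤ η := by nlinarith only [hη, hη1]
    have hAQ : 0 < A + Q := by positivity
    nlinarith only [hA, this, hQ]
  linarith only [hl2, h7, h8]

/-- The Gaussian necessary condition, in logarithmic form. -/
lemma gauss_ineq {p₁ p₂ p₃ r : ℝ} (hp₁ : 0 < p₁) (hp₂ : 0 < p₂) (hp₃ : 0 < p₃)
    (hr : 0 < r) (hr1 : r < 1) (hH : 1 / r = 1 / p₁ + 1 / p₂ + 1 / p₃)
    {C : ℝ≥0∞} (hCt : C < ∞) (hC : BddWith p₁ p₂ p₃ r C)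
    {a₁ a₂ a₃ : ℝ} (ha₁ : 0 < a₁) (ha₂ : 0 < a₂) (ha₃ : 0 < a₃) {A D c : ℝ}
    (hA : A = a₁ * (1 / p₁) + 16 * (a₂ * (1 / p₂)) + 9 * (a₃ * (1 / p₃)))
    (hD : D = a₁ * (1 / p₁) * (a₂ * (1 / p₂)) + a₁ * (1 / p₁) * (a₃ * (1 / p₃)) +
      a₂ * (1 / p₂) * (a₃ * (1 / p₃))) (hc : c = 1 / r - 1) :
    (c - 1) * Real.log A + c * Real.log c + (1 / p₁ * Real.log a₁ + 1 / p₂ * Real.log a₂ +
      1 / p₃ * Real.log a₃) ≤ c * Real.log D := by
  have hcpos : 0 < c := by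
    rw [hc, sub_pos, lt_div_iff₀ hr]; linarith only [hr1]
  have hu : 1 ≤ 1 / p₁ + 1 / p₂ + 1 / p₃ := by
    rw [← hH, le_div_iff₀ hr]; linarith only [hr1]
  have hApos : 0 < A := by rw [hA]; positivity
  have hDpos : 0 < D := by rw [hD]; positivity
  obtain ⟨s, hs⟩ : ∃ s : ℝ, s = 1 / c := ⟨_, rfl⟩
  have hspos : 0 < s := by rw [hs]; positivity
  have hsc : s * c = 1 := by rw [hs]; field_simp
  have hlogs : Real.log s = -Real.log c := by rw [hs, one_div, Real.log_inv]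
  have hsumu : 1 / p₁ + 1 / p₂ + 1 / p₃ = 1 + c := by rw [hc, hH]; ring
  have hDA : 0 < D / A := by positivity
  -- the inequality for each `η ∈ (0,1]`
  obtain ⟨K, hK⟩ : ∃ K : ℝ, K = (1 / p₁ * a₁ + 1 / p₂ * a₂ + 1 / p₃ * a₃) / 2 +
    2 * (1 + c) + (A + D / A) := ⟨_, rfl⟩
  have hKpos : 0 < K := by rw [hK]; (clear * - hp₁ ha₁ hp₂ ha₂ hp₃ ha₃ hcpos hApos hDpos; positivity)
  have main : ∀ η : ℝ, 0 < η → η ≤ 1 →
      (c - 1) * Real.log A + c * Real.log c + (1 / p₁ * Real.log a₁ + 1 / p₂ * Real.log a₂ +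
        1 / p₃ * Real.log a₃) - c * Real.log D ≤ K * η := by
    intro η hη hη1
    have hγpos : 0 < η ^ 2 := by positivity
    have ht := gauss_test hp₁ hp₂ hp₃ hr hr1 hu hCt hC (a₁ := η ^ 2 * a₁) (a₂ := η ^ 2 * a₂)
      (a₃ := η ^ 2 * a₃) (by positivity) (by positivity) (by positivity) (A := η ^ 2 * A)
      (D := (η ^ 2) ^ 2 * D) (by rw [hA]; ring) (by rw [hD]; ring) (s := s) (η := η)
      (by rw [hs, hc]) hη
    have hquot : (η ^ 2) ^ 2 * D / (η ^ 2 * A) = η ^ 2 * (D / A) := by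
      (clear * - hApos hDpos hη; field_simp)
    rw [hquot] at ht
    have hsD : 0 < s * (η ^ 2 * (D / A)) := by (clear * - hspos hη hDpos hApos; positivity)
    have hl := Real.log_le_log (by (clear * - hη hApos hspos hDpos; positivity)) ht
    rw [log_prod2 (by (clear * - hη hApos; positivity)) (by (clear * - hspos hη hDpos hApos; positivity)), log_prod3 (by (clear * - hη ha₁; positivity)) (by (clear * - hη ha₂; positivity))
      (by (clear * - hη ha₃; positivity)), log_GG (by (clear * - hη hApos; positivity)) hη, log_GG hsD hη,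
      log_BB (by positivity) hη, log_BB (by positivity) hη, log_BB (by positivity) hη,
      Real.log_mul hγpos.ne' hApos.ne', Real.log_mul hspos.ne' (mul_pos hγpos hDA).ne',
      Real.log_mul hγpos.ne' hDA.ne', Real.log_div hDpos.ne' hApos.ne',
      Real.log_mul hγpos.ne' ha₁.ne', Real.log_mul hγpos.ne' ha₂.ne',
      Real.log_mul hγpos.ne' ha₃.ne', hlogs] at hl
    have hLle : Real.log (1 + η) ≤ η := by
      have := Real.log_le_sub_one_of_pos (by positivity : (0 : ℝ) < 1 + η)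
      linarith only [this]
    rw [hK]
    exact alg_step hsc hcpos hη hη1 hsumu hLle hApos hDA hl
  by_contra hcon
  push Not at hcon
  obtain ⟨δ, hδ⟩ : ∃ δ : ℝ, δ = (c - 1) * Real.log A + c * Real.log c +
    (1 / p₁ * Real.log a₁ + 1 / p₂ * Real.log a₂ + 1 / p₃ * Real.log a₃) -
      c * Real.log D := ⟨_, rfl⟩
  have hδpos : 0 < δ := by linarith only [hcon, hδ]
  have h1 := main (min 1 (δ / (2 * K))) (by (clear * - hδpos hKpos; positivity)) (min_le_left _ _)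
  rw [← hδ] at h1
  have h2 : K * min 1 (δ / (2 * K)) ≤ K * (δ / (2 * K)) := by
    gcongr
    exact min_le_right _ _
  have h3 : K * (δ / (2 * K)) = δ / 2 := by (clear * - hKpos hδpos; field_simp)
  linarith only [hcon, hδ, h1, h2, h3]

end Vale.Agent.P141
end
end

section

section

open MeasureTheory Filter Topology
open scoped ENNReal SchwartzMap

namespace Vale.Agent.P141

/-- The algebraic identity behind the covariance form. -/
lemma cov_identity (w₁ w₂ w₃ V₁ V₂ C : ℝ) :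
    (w₁ * V₁ + w₂ * V₂ + w₃ * (V₁ + V₂ - 2 * C)) * (w₁ + 16 * w₂ + 9 * w₃) *
        (16 * V₁ - 8 * C + V₂) -
      (16 * V₁ - 8 * C + V₂) ^ 2 * (w₁ * w₂ + w₁ * w₃ + w₂ * w₃) -
      (V₁ * V₂ - C ^ 2) * (w₁ + 16 * w₂ + 9 * w₃) ^ 2 =
    ((4 * w₂ + 3 * w₃) * (16 * V₁ - 8 * C + V₂) - (w₁ + 16 * w₂ + 9 * w₃) * (4 * V₁ - C)) ^ 2 := by
  ring

lemma V3_pos {V₁ V₂ C : ℝ} (hV₁ : 0 < V₁) (hΔ : C ^ 2 < V₁ * V₂) : 0 < V₁ + V₂ - 2 * C := by
  have h : 0 < (V₁ + V₂ - 2 * C) * V₁ := by nlinarith [sq_nonneg (V₁ - C)]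
  exact pos_of_mul_pos_left h hV₁.le

lemma V0_pos {V₁ V₂ C : ℝ} (hV₁ : 0 < V₁) (hΔ : C ^ 2 < V₁ * V₂) :
    0 < 16 * V₁ - 8 * C + V₂ := by
  have h : 0 < (16 * V₁ - 8 * C + V₂) * V₁ := by nlinarith [sq_nonneg (4 * V₁ - C)]
  exact pos_of_mul_pos_left h hV₁.le

lemma V2_pos {V₁ V₂ C : ℝ} (hV₁ : 0 < V₁) (hΔ : C ^ 2 < V₁ * V₂) : 0 < V₂ := by
  have h : 0 < V₁ * V₂ := lt_of_le_of_lt (sq_nonneg C) hΔ
  exact pos_of_mul_pos_right h hV₁.le

/-- The quadratic-form inequality. -/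
lemma cov_key {u₁ u₂ u₃ w₁ w₂ w₃ V₁ V₂ C A D : ℝ} (hu₁ : w₁ * V₁ = u₁) (hu₂ : w₂ * V₂ = u₂)
    (hu₃ : w₃ * (V₁ + V₂ - 2 * C) = u₃) (hA : A = w₁ + 16 * w₂ + 9 * w₃)
    (hD : D = w₁ * w₂ + w₁ * w₃ + w₂ * w₃) (hApos : 0 < A) (hV₀ : 0 < 16 * V₁ - 8 * C + V₂) :
    (16 * V₁ - 8 * C + V₂) * D / A + (V₁ * V₂ - C ^ 2) * A / (16 * V₁ - 8 * C + V₂) ≤
      u₁ + u₂ + u₃ := by
  have hid := cov_identity w₁ w₂ w₃ V₁ V₂ C
  rw [hu₁, hu₂, hu₃, ← hA, ← hD] at hid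
  have h2 : (16 * V₁ - 8 * C + V₂) ^ 2 * D + (V₁ * V₂ - C ^ 2) * A ^ 2 ≤
      (u₁ + u₂ + u₃) * (A * (16 * V₁ - 8 * C + V₂)) := by
    have := sq_nonneg ((4 * w₂ + 3 * w₃) * (16 * V₁ - 8 * C + V₂) - A * (4 * V₁ - C))
    linarith
  have h3 : (16 * V₁ - 8 * C + V₂) * D / A + (V₁ * V₂ - C ^ 2) * A / (16 * V₁ - 8 * C + V₂) =
      ((16 * V₁ - 8 * C + V₂) ^ 2 * D + (V₁ * V₂ - C ^ 2) * A ^ 2) /
        (A * (16 * V₁ - 8 * C + V₂)) := by
    (clear * - hApos hV₀; field_simp)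
  rw [h3, div_le_iff₀ (by (clear * - hApos hV₀; positivity))]
  exact h2

/-- From the logarithmic inequality to the covariance form. -/
lemma cov_log {u c V₀ Δ A D M : ℝ} (hc : 0 < c) (hu : u = 1 + c) (hV₀ : 0 < V₀) (hΔ : 0 < Δ)
    (hA : 0 < A) (hD : 0 < D) (hkey : V₀ * D / A + Δ * A / V₀ ≤ u)
    (hg : (c - 1) * Real.log A + c * Real.log c - M ≤ c * Real.log D) :
    u * Real.log V₀ - M ≤ 2 * Real.log V₀ - Real.log Δ := by
  have h1 : Real.log (V₀ * D / (c * A)) ≤ V₀ * D / (c * A) - 1 :=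
    Real.log_le_sub_one_of_pos (by positivity)
  have h2 : Real.log (Δ * A / V₀) ≤ Δ * A / V₀ - 1 :=
    Real.log_le_sub_one_of_pos (by positivity)
  have h3 : c * (V₀ * D / (c * A)) = V₀ * D / A := by field_simp
  have e1 : Real.log (V₀ * D / (c * A)) =
      Real.log V₀ + Real.log D - (Real.log c + Real.log A) := by
    rw [Real.log_div (by positivity) (by positivity), Real.log_mul hV₀.ne' hD.ne',
      Real.log_mul hc.ne' hA.ne']
  have e2 : Real.log (Δ * A / V₀) = Real.log Δ + Real.log A - Real.log V₀ := by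
    rw [Real.log_div (by positivity) (by positivity), Real.log_mul hΔ.ne' hA.ne']
  have h4 : c * Real.log (V₀ * D / (c * A)) ≤ V₀ * D / A - c := by
    have := mul_le_mul_of_nonneg_left h1 hc.le
    rw [mul_sub, h3, mul_one] at this
    exact this
  rw [e1] at h4
  rw [e2] at h2
  rw [hu] at hkey ⊢
  linarith only [hkey, hg, h2, h4]

/-- The covariance form of the Gaussian necessary condition. -/
theorem cov_ineq {p₁ p₂ p₃ r : ℝ} (hp₁ : 0 < p₁) (hp₂ : 0 < p₂) (hp₃ : 0 < p₃)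
    (hr : 0 < r) (hr1 : r < 1) (hH : 1 / r = 1 / p₁ + 1 / p₂ + 1 / p₃)
    {K : ℝ≥0∞} (hKt : K < ∞) (hK : BddWith p₁ p₂ p₃ r K)
    {V₁ V₂ C : ℝ} (hV₁ : 0 < V₁) (hΔ : C ^ 2 < V₁ * V₂) :
    1 / p₁ * Real.log ((16 * V₁ - 8 * C + V₂) / V₁) +
      1 / p₂ * Real.log ((16 * V₁ - 8 * C + V₂) / V₂) +
      1 / p₃ * Real.log ((16 * V₁ - 8 * C + V₂) / (V₁ + V₂ - 2 * C)) ≤
    Real.log ((16 * V₁ - 8 * C + V₂) ^ 2 / (V₁ * V₂ - C ^ 2)) := by
  have hV₂ := V2_pos hV₁ hΔ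
  have hV₃ := V3_pos hV₁ hΔ
  have hV₀ := V0_pos hV₁ hΔ
  have hΔ' : 0 < V₁ * V₂ - C ^ 2 := by linarith only [hΔ]
  obtain ⟨c, hc⟩ : ∃ c : ℝ, c = 1 / r - 1 := ⟨_, rfl⟩
  have hcpos : 0 < c := by
    rw [hc, sub_pos, lt_div_iff₀ hr]; linarith only [hr1]
  have hsumu : 1 / p₁ + 1 / p₂ + 1 / p₃ = 1 + c := by rw [hc, hH]; ring
  obtain ⟨A, hA⟩ : ∃ A : ℝ, A = V₁⁻¹ * (1 / p₁) + 16 * (V₂⁻¹ * (1 / p₂)) +
    9 * ((V₁ + V₂ - 2 * C)⁻¹ * (1 / p₃)) := ⟨_, rfl⟩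
  obtain ⟨D, hD⟩ : ∃ D : ℝ, D = V₁⁻¹ * (1 / p₁) * (V₂⁻¹ * (1 / p₂)) +
    V₁⁻¹ * (1 / p₁) * ((V₁ + V₂ - 2 * C)⁻¹ * (1 / p₃)) +
    V₂⁻¹ * (1 / p₂) * ((V₁ + V₂ - 2 * C)⁻¹ * (1 / p₃)) := ⟨_, rfl⟩
  have hg := gauss_ineq hp₁ hp₂ hp₃ hr hr1 hH hKt hK (inv_pos.2 hV₁) (inv_pos.2 hV₂)
    (inv_pos.2 hV₃) hA hD hc
  have hApos : 0 < A := by rw [hA]; (clear * - hV₁ hp₁ hV₂ hp₂ hV₃ hp₃; positivity)
  have hDpos : 0 < D := by rw [hD]; (clear * - hV₁ hp₁ hV₂ hp₂ hV₃ hp₃; positivity)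
  have hw₁ : V₁⁻¹ * (1 / p₁) * V₁ = 1 / p₁ := by
    rw [mul_comm, ← mul_assoc, mul_inv_cancel₀ hV₁.ne', one_mul]
  have hw₂ : V₂⁻¹ * (1 / p₂) * V₂ = 1 / p₂ := by
    rw [mul_comm, ← mul_assoc, mul_inv_cancel₀ hV₂.ne', one_mul]
  have hw₃ : (V₁ + V₂ - 2 * C)⁻¹ * (1 / p₃) * (V₁ + V₂ - 2 * C) = 1 / p₃ := by
    rw [mul_comm, ← mul_assoc, mul_inv_cancel₀ hV₃.ne', one_mul]
  have key := cov_key hw₁ hw₂ hw₃ hA hD hApos hV₀
  rw [Real.log_inv, Real.log_inv, Real.log_inv] at hg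
  have hfin := cov_log (M := 1 / p₁ * Real.log V₁ + 1 / p₂ * Real.log V₂ +
    1 / p₃ * Real.log (V₁ + V₂ - 2 * C)) hcpos hsumu hV₀ hΔ' hApos hDpos key (by linarith only [hg])
  rw [Real.log_div hV₀.ne' hV₁.ne', Real.log_div hV₀.ne' hV₂.ne', Real.log_div hV₀.ne' hV₃.ne',
    Real.log_div (by (clear * - hV₀; positivity)) hΔ'.ne', Real.log_pow]
  push_cast
  linarith only [hfin]

end Vale.Agent.P141
end
end

section

section

open MeasureTheory Filter Topology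
open scoped ENNReal SchwartzMap

namespace Vale.Agent.P141

/-- Normalised form of the discrete inequality. -/
lemma discrete_norm {p₁ p₂ p₃ r : ℝ} (hp₁ : 0 < p₁) (hp₂ : 0 < p₂) (hp₃ : 0 < p₃)
    (hr : 0 < r) (hr1 : r < 1) (hu : 1 ≤ 1 / p₁ + 1 / p₂ + 1 / p₃)
    {C : ℝ≥0∞} (hCt : C < ∞) (hC : BddWith p₁ p₂ p₃ r C) (F₁ F₂ F₃ : ℤ → ℝ≥0∞) :
    (∑' x, (∑' t, F₁ (x - t) * F₂ (x - 2 * t) * F₃ (x - 3 * t)) ^ (1 / (1 / r - 1))) ^
      (1 / r - 1) ≤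
      (∑' z, F₁ z ^ p₁) ^ (1 / p₁) * (∑' z, F₂ z ^ p₂) ^ (1 / p₂) *
        (∑' z, F₃ z ^ p₃) ^ (1 / p₃) := by
  have hcpos : 0 < 1 / r - 1 := by
    rw [sub_pos, lt_div_iff₀ hr]; linarith only [hr1]
  have hspos : 0 < 1 / (1 / r - 1) := by (clear * - hcpos; positivity)
  set N₁ : ℝ≥0∞ := ∑' z, F₁ z ^ p₁ with hN₁
  set N₂ : ℝ≥0∞ := ∑' z, F₂ z ^ p₂ with hN₂
  set N₃ : ℝ≥0∞ := ∑' z, F₃ z ^ p₃ with hN₃
  have hzero : ∀ (F : ℤ → ℝ≥0∞) (p : ℝ), 0 < p → ∑' z, F z ^ p = 0 → ∀ z, F z = 0 := by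
    intro F p hp h z
    have := ENNReal.tsum_eq_zero.1 h z
    exact (ENNReal.rpow_eq_zero_iff_of_pos hp).1 this
  have hL0 : (∀ x t : ℤ, F₁ (x - t) * F₂ (x - 2 * t) * F₃ (x - 3 * t) = 0) →
      (∑' x, (∑' t, F₁ (x - t) * F₂ (x - 2 * t) * F₃ (x - 3 * t)) ^ (1 / (1 / r - 1))) ^
      (1 / r - 1) = 0 := by
    intro h
    simp only [h, tsum_zero]
    rw [ENNReal.zero_rpow_of_pos hspos, tsum_zero, ENNReal.zero_rpow_of_pos hcpos]
  rcases eq_or_ne N₁ 0 with h | hn₁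
  · rw [hL0 fun x t => by rw [hzero F₁ p₁ hp₁ h]; simp]; exact zero_le
  rcases eq_or_ne N₂ 0 with h | hn₂
  · rw [hL0 fun x t => by rw [hzero F₂ p₂ hp₂ h]; simp]; exact zero_le
  rcases eq_or_ne N₃ 0 with h | hn₃
  · rw [hL0 fun x t => by rw [hzero F₃ p₃ hp₃ h]; simp]; exact zero_le
  have hne : ∀ (N : ℝ≥0∞) (p : ℝ), 0 < p → N ≠ 0 → N ^ (1 / p) ≠ 0 := by
    intro N p hp h h2
    exact h ((ENNReal.rpow_eq_zero_iff_of_pos (by positivity)).1 h2)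
  rcases eq_or_ne N₁ ∞ with h | ht₁
  · rw [h, ENNReal.top_rpow_of_pos (by positivity), ENNReal.top_mul (hne _ _ hp₂ hn₂),
      ENNReal.top_mul (hne _ _ hp₃ hn₃)]; exact le_top
  rcases eq_or_ne N₂ ∞ with h | ht₂
  · rw [h, ENNReal.top_rpow_of_pos (by positivity), ENNReal.mul_top (hne _ _ hp₁ hn₁),
      ENNReal.top_mul (hne _ _ hp₃ hn₃)]; exact le_top
  rcases eq_or_ne N₃ ∞ with h | ht₃
  · rw [h, ENNReal.top_rpow_of_pos (by positivity),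
      ENNReal.mul_top (mul_ne_zero (hne _ _ hp₁ hn₁) (hne _ _ hp₂ hn₂))]; exact le_top
  -- the main case
  have hnt : ∀ (N : ℝ≥0∞) (p : ℝ), 0 < p → N ≠ ∞ → N ^ (1 / p) ≠ ∞ := fun N p hp h =>
    ENNReal.rpow_ne_top_of_nonneg (by positivity) h
  obtain ⟨l₁, hl₁⟩ : ∃ l : ℝ≥0∞, l = N₁ ^ (1 / p₁) := ⟨_, rfl⟩
  obtain ⟨l₂, hl₂⟩ : ∃ l : ℝ≥0∞, l = N₂ ^ (1 / p₂) := ⟨_, rfl⟩
  obtain ⟨l₃, hl₃⟩ : ∃ l : ℝ≥0∞, l = N₃ ^ (1 / p₃) := ⟨_, rfl⟩
  have l₁0 : l₁ ≠ 0 := hl₁ ▸ hne _ _ hp₁ hn₁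
  have l₂0 : l₂ ≠ 0 := hl₂ ▸ hne _ _ hp₂ hn₂
  have l₃0 : l₃ ≠ 0 := hl₃ ▸ hne _ _ hp₃ hn₃
  have l₁t : l₁ ≠ ∞ := hl₁ ▸ hnt _ _ hp₁ ht₁
  have l₂t : l₂ ≠ ∞ := hl₂ ▸ hnt _ _ hp₂ ht₂
  have l₃t : l₃ ≠ ∞ := hl₃ ▸ hnt _ _ hp₃ ht₃
  have hnorm : ∀ (F : ℤ → ℝ≥0∞) (p : ℝ) (l : ℝ≥0∞), 0 < p → ∑' z, F z ^ p ≠ 0 →
      ∑' z, F z ^ p ≠ ∞ → l = (∑' z, F z ^ p) ^ (1 / p) → ∑' z, (l⁻¹ * F z) ^ p ≤ 1 := by
    intro F p l hp h0 ht hl
    have : ∀ z, (l⁻¹ * F z) ^ p = (∑' z, F z ^ p)⁻¹ * F z ^ p := by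
      intro z
      rw [ENNReal.mul_rpow_of_nonneg _ _ hp.le, hl, ENNReal.inv_rpow, ← ENNReal.rpow_mul,
        one_div, inv_mul_cancel₀ hp.ne', ENNReal.rpow_one]
    simp only [this]
    rw [ENNReal.tsum_mul_left, ENNReal.inv_mul_cancel h0 ht]
  have main := discrete_tsum hp₁ hp₂ hp₃ hr hr1 hu hCt hC (fun z => l₁⁻¹ * F₁ z)
    (fun z => l₂⁻¹ * F₂ z) (fun z => l₃⁻¹ * F₃ z) (hnorm F₁ p₁ l₁ hp₁ hn₁ ht₁ hl₁)
    (hnorm F₂ p₂ l₂ hp₂ hn₂ ht₂ hl₂) (hnorm F₃ p₃ l₃ hp₃ hn₃ ht₃ hl₃)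
  have e : ∀ x t : ℤ, l₁⁻¹ * F₁ (x - 1 * t) * (l₂⁻¹ * F₂ (x - 2 * t)) * (l₃⁻¹ * F₃ (x - 3 * t)) =
      (l₁⁻¹ * l₂⁻¹ * l₃⁻¹) * (F₁ (x - t) * F₂ (x - 2 * t) * F₃ (x - 3 * t)) := by
    intro x t
    rw [one_mul]; ring
  simp only [e] at main
  simp only [ENNReal.tsum_mul_left] at main
  simp only [ENNReal.mul_rpow_of_nonneg _ _ hspos.le] at main
  rw [ENNReal.tsum_mul_left] at main
  have hmain2 := ENNReal.rpow_le_rpow main hcpos.le
  rw [ENNReal.one_rpow, ENNReal.mul_rpow_of_nonneg _ _ hcpos.le] at hmain2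
  have e2 : ∀ y : ℝ≥0∞, (y ^ (1 / (1 / r - 1))) ^ (1 / r - 1) = y := by
    intro y
    rw [← ENNReal.rpow_mul, one_div_mul_cancel hcpos.ne', ENNReal.rpow_one]
  have e3 : ∀ y : ℝ≥0∞, (y ^ (1 / (1 / r - 1))) ^ (1 / r - 1) = y := e2
  rw [← ENNReal.mul_rpow_of_nonneg _ _ hspos.le, ← ENNReal.mul_rpow_of_nonneg _ _ hspos.le,
    e2] at hmain2
  rw [← hl₁, ← hl₂, ← hl₃]
  calc _ = (l₁ * l₂ * l₃) * ((l₁⁻¹ * l₂⁻¹ * l₃⁻¹) * (∑' x, (∑' t, F₁ (x - t) * F₂ (x - 2 * t) *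
        F₃ (x - 3 * t)) ^ (1 / (1 / r - 1))) ^ (1 / r - 1)) := by
        rw [← mul_assoc]
        have : l₁ * l₂ * l₃ * (l₁⁻¹ * l₂⁻¹ * l₃⁻¹) = 1 := by
          calc _ = (l₁ * l₁⁻¹) * (l₂ * l₂⁻¹) * (l₃ * l₃⁻¹) := by ring
            _ = 1 := by
              rw [ENNReal.mul_inv_cancel l₁0 l₁t, ENNReal.mul_inv_cancel l₂0 l₂t,
                ENNReal.mul_inv_cancel l₃0 l₃t]; simp
        rw [this, one_mul]
    _ ≤ (l₁ * l₂ * l₃) * 1 := by (clear * - hmain2; gcongr)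
    _ = _ := mul_one _

/-- From boundedness at a tuple of extended exponents to real exponents. -/
lemma exists_bddWith {p₁ p₂ p₃ r : ℝ≥0∞} (h₁ : p₁ ≠ ∞) (h₂ : p₂ ≠ ∞) (h₃ : p₃ ≠ ∞)
    (hr : r ≠ ∞) (hb : BoundedAt p₁ p₂ p₃ r) :
    ∃ C : ℝ≥0∞, C < ∞ ∧ BddWith p₁.toReal p₂.toReal p₃.toReal r.toReal C := by
  obtain ⟨C, hC, h⟩ := hb
  refine ⟨C, hC, fun f₁ f₂ f₃ => ?_⟩
  rw [ENNReal.ofReal_toReal h₁, ENNReal.ofReal_toReal h₂, ENNReal.ofReal_toReal h₃,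
    ENNReal.ofReal_toReal hr]
  exact h f₁ f₂ f₃

lemma toReal_pos' {p : ℝ≥0∞} (h1 : 1 < p) (ht : p ≠ ∞) : 0 < p.toReal :=
  ENNReal.toReal_pos (fun h => by simp [h] at h1) ht

lemma holder_real {p₁ p₂ p₃ r : ℝ≥0∞} (h : IsHolderTuple p₁ p₂ p₃ r) :
    1 / r.toReal = (p₁⁻¹).toReal + (p₂⁻¹).toReal + (p₃⁻¹).toReal := by
  have h₁ : p₁⁻¹ ≠ ∞ := ENNReal.inv_ne_top.2 (fun h0 => by simpa [h0] using h.one_lt_p₁)
  have h₂ : p₂⁻¹ ≠ ∞ := ENNReal.inv_ne_top.2 (fun h0 => by simpa [h0] using h.one_lt_p₂)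
  have h₃ : p₃⁻¹ ≠ ∞ := ENNReal.inv_ne_top.2 (fun h0 => by simpa [h0] using h.one_lt_p₃)
  rw [one_div, ← ENNReal.toReal_inv, h.holder, ENNReal.toReal_add (ENNReal.add_ne_top.2 ⟨h₁, h₂⟩) h₃,
    ENNReal.toReal_add h₁ h₂]

lemma inv_lt_one_real {p : ℝ≥0∞} (h1 : 1 < p) : (p⁻¹).toReal < 1 := by
  have : p⁻¹ < 1 := ENNReal.inv_lt_one.2 h1
  rw [← ENNReal.toReal_one]
  exact (ENNReal.toReal_lt_toReal this.ne_top ENNReal.one_ne_top).2 this

lemma finite_of_lt_half {p₁ p₂ p₃ r : ℝ≥0∞} (h : IsHolderTuple p₁ p₂ p₃ r)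
    (hr : 2 < 1 / r.toReal) : p₁ ≠ ∞ ∧ p₂ ≠ ∞ ∧ p₃ ≠ ∞ := by
  rw [holder_real h] at hr
  have h₁ := inv_lt_one_real h.one_lt_p₁
  have h₂ := inv_lt_one_real h.one_lt_p₂
  have h₃ := inv_lt_one_real h.one_lt_p₃
  refine ⟨?_, ?_, ?_⟩ <;> intro h0 <;> rw [h0, ENNReal.inv_top, ENNReal.toReal_zero] at hr <;>
    linarith only [hr, h₁, h₂, h₃]

/-- The Gaussian necessary condition for tuples. -/
theorem region_of_boundedAt {p₁ p₂ p₃ r : ℝ≥0∞} (h : IsHolderTuple p₁ p₂ p₃ r)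
    (hr : 2 < 1 / r.toReal) (hb : BoundedAt p₁ p₂ p₃ r) {V₁ V₂ C : ℝ} (hV₁ : 0 < V₁)
    (hΔ : C ^ 2 < V₁ * V₂) :
    (p₁⁻¹).toReal * Real.log ((16 * V₁ - 8 * C + V₂) / V₁) +
      (p₂⁻¹).toReal * Real.log ((16 * V₁ - 8 * C + V₂) / V₂) +
      (p₃⁻¹).toReal * Real.log ((16 * V₁ - 8 * C + V₂) / (V₁ + V₂ - 2 * C)) ≤
    Real.log ((16 * V₁ - 8 * C + V₂) ^ 2 / (V₁ * V₂ - C ^ 2)) := by
  obtain ⟨t₁, t₂, t₃⟩ := finite_of_lt_half h hr
  have rpos : 0 < r.toReal := ENNReal.toReal_pos h.r_pos.ne' h.r_lt_top.ne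
  obtain ⟨K, hKt, hK⟩ := exists_bddWith t₁ t₂ t₃ h.r_lt_top.ne hb
  have hH := holder_real h
  rw [ENNReal.toReal_inv, ENNReal.toReal_inv, ENNReal.toReal_inv] at hH ⊢
  simp only [← one_div] at hH ⊢
  have hr1 : r.toReal < 1 := by
    rw [lt_div_iff₀ rpos] at hr; linarith only [hr]
  exact cov_ineq (toReal_pos' h.one_lt_p₁ t₁) (toReal_pos' h.one_lt_p₂ t₂)
    (toReal_pos' h.one_lt_p₃ t₃) rpos hr1 hH hKt hK hV₁ hΔ

end Vale.Agent.P141
end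
end

section

section

open MeasureTheory Filter Topology
open scoped ENNReal SchwartzMap

namespace Vale.Agent.P141

lemma two_lt_of_lt_half {r : ℝ≥0∞} (h0 : 0 < r) (h : r < 1 / 2) : 2 < 1 / r.toReal := by
  have ht : r ≠ ∞ := (h.trans_le le_top).ne
  have rpos : 0 < r.toReal := ENNReal.toReal_pos h0.ne' ht
  have : r.toReal < 1 / 2 := by
    have := (ENNReal.toReal_lt_toReal ht (by simp)).2 h
    simpa using this
  rw [lt_div_iff₀ rpos]; linarith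

lemma logb_mem {b : ℝ} (hb : 2 < b) : 0 < Real.logb b 2 ∧ Real.logb b 2 < 1 := by
  constructor
  · exact Real.logb_pos (by linarith) (by norm_num)
  · rw [Real.logb_lt_iff_lt_rpow (by linarith) (by norm_num), Real.rpow_one]; exact hb

lemma log_half {b : ℝ} (hb : 2 < b) : Real.log (b / 2) = (1 - Real.logb b 2) * Real.log b := by
  have : Real.log b ≠ 0 := (Real.log_pos (by linarith)).ne'
  rw [Real.log_div (by linarith) (by norm_num), sub_mul, one_mul, Real.logb,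
    div_mul_cancel₀ _ this]

variable {p₁ p₂ p₃ r : ℝ≥0∞}

/-- Uniform threshold. -/
theorem not_bounded_of_lt (h : IsHolderTuple p₁ p₂ p₃ r)
    (hr : r < ENNReal.ofReal (Real.log 13 / Real.log (676 / 3))) : ¬ BoundedAt p₁ p₂ p₃ r := by
  intro hb
  have rpos : 0 < r.toReal := ENNReal.toReal_pos h.r_pos.ne' h.r_lt_top.ne
  have l13 : 0 < Real.log 13 := Real.log_pos (by norm_num)
  have l676 : 0 < Real.log (676 / 3) := Real.log_pos (by norm_num)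
  have h1 : r.toReal < Real.log 13 / Real.log (676 / 3) := by
    have := (ENNReal.toReal_lt_toReal h.r_lt_top.ne ENNReal.ofReal_ne_top).2 hr
    rwa [ENNReal.toReal_ofReal (by positivity)] at this
  have h2 : Real.log (676 / 3) < 1 / r.toReal * Real.log 13 := by
    rw [lt_div_iff₀ l676] at h1
    rw [div_mul_eq_mul_div, one_mul, lt_div_iff₀ rpos]; linarith
  have h3 : 2 * Real.log 13 < Real.log (676 / 3) := by
    have : 2 * Real.log 13 = Real.log (13 ^ 2) := by rw [Real.log_pow]; norm_num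
    rw [this]
    exact Real.log_lt_log (by norm_num) (by norm_num)
  have h4 : 2 < 1 / r.toReal := by
    by_contra hcon
    push Not at hcon
    nlinarith only [h2, h3, l13, hcon]
  have := region_of_boundedAt h h4 hb (V₁ := 1) (V₂ := 1) (C := 1 / 2) (by norm_num) (by norm_num)
  have hH := holder_real h
  have e1 : ((16 : ℝ) * 1 - 8 * (1 / 2) + 1) / 1 = 13 := by norm_num
  have e3 : ((16 : ℝ) * 1 - 8 * (1 / 2) + 1) / (1 + 1 - 2 * (1 / 2)) = 13 := by norm_num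
  have e4 : ((16 : ℝ) * 1 - 8 * (1 / 2) + 1) ^ 2 / (1 * 1 - (1 / 2) ^ 2) = 676 / 3 := by norm_num
  rw [e1, e3, e4, ← add_mul, ← add_mul, ← hH] at this
  linarith only [h2, this]

/-- Three linear regions. -/
theorem not_bounded_linear (h : IsHolderTuple p₁ p₂ p₃ r)
    (hu : 2 < (1 - Real.logb 25 2) * (p₁⁻¹).toReal + (p₂⁻¹).toReal + (p₃⁻¹).toReal ∨
      2 < (p₁⁻¹).toReal + (1 - Real.logb 10 2) * (p₂⁻¹).toReal + (p₃⁻¹).toReal ∨
      2 < (p₁⁻¹).toReal + (p₂⁻¹).toReal + (1 - Real.logb 17 2) * (p₃⁻¹).toReal) :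
    ¬ BoundedAt p₁ p₂ p₃ r := by
  intro hb
  have u₁ : 0 ≤ (p₁⁻¹).toReal := ENNReal.toReal_nonneg
  have u₂ : 0 ≤ (p₂⁻¹).toReal := ENNReal.toReal_nonneg
  have u₃ : 0 ≤ (p₃⁻¹).toReal := ENNReal.toReal_nonneg
  obtain ⟨a25, b25⟩ := logb_mem (b := 25) (by norm_num)
  obtain ⟨a10, b10⟩ := logb_mem (b := 10) (by norm_num)
  obtain ⟨a17, b17⟩ := logb_mem (b := 17) (by norm_num)
  have h25 := log_half (b := 25) (by norm_num)
  have h10 := log_half (b := 10) (by norm_num)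
  have h17 := log_half (b := 17) (by norm_num)
  have l25 : 0 < Real.log 25 := Real.log_pos (by norm_num)
  have l10 : 0 < Real.log 10 := Real.log_pos (by norm_num)
  have l17 : 0 < Real.log 17 := Real.log_pos (by norm_num)
  have hH := holder_real h
  rcases hu with hu | hu | hu
  · have h4 : 2 < 1 / r.toReal := by rw [hH]; nlinarith only [hu, u₁, a25]
    have := region_of_boundedAt h h4 hb (V₁ := 2) (V₂ := 1) (C := 1) (by norm_num) (by norm_num)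
    have e1 : ((16 : ℝ) * 2 - 8 * 1 + 1) / 2 = 25 / 2 := by norm_num
    have e2 : ((16 : ℝ) * 2 - 8 * 1 + 1) / 1 = 25 := by norm_num
    have e3 : ((16 : ℝ) * 2 - 8 * 1 + 1) / (2 + 1 - 2 * 1) = 25 := by norm_num
    have e4 : ((16 : ℝ) * 2 - 8 * 1 + 1) ^ 2 / (2 * 1 - 1 ^ 2) = 25 ^ 2 := by norm_num
    rw [e1, e2, e3, e4, h25, Real.log_pow] at this
    push_cast at this
    have key := mul_lt_mul_of_pos_right hu l25
    linarith only [this, key]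
  · have h4 : 2 < 1 / r.toReal := by rw [hH]; nlinarith only [hu, u₂, a10]
    have := region_of_boundedAt h h4 hb (V₁ := 1) (V₂ := 2) (C := 1) (by norm_num) (by norm_num)
    have e1 : ((16 : ℝ) * 1 - 8 * 1 + 2) / 1 = 10 := by norm_num
    have e2 : ((16 : ℝ) * 1 - 8 * 1 + 2) / 2 = 10 / 2 := by norm_num
    have e3 : ((16 : ℝ) * 1 - 8 * 1 + 2) / (1 + 2 - 2 * 1) = 10 := by norm_num
    have e4 : ((16 : ℝ) * 1 - 8 * 1 + 2) ^ 2 / (1 * 2 - 1 ^ 2) = 10 ^ 2 := by norm_num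
    rw [e1, e2, e3, e4, h10, Real.log_pow] at this
    push_cast at this
    have key := mul_lt_mul_of_pos_right hu l10
    linarith only [this, key]
  · have h4 : 2 < 1 / r.toReal := by rw [hH]; nlinarith only [hu, u₃, a17]
    have := region_of_boundedAt h h4 hb (V₁ := 1) (V₂ := 1) (C := 0) (by norm_num) (by norm_num)
    have e1 : ((16 : ℝ) * 1 - 8 * 0 + 1) / 1 = 17 := by norm_num
    have e3 : ((16 : ℝ) * 1 - 8 * 0 + 1) / (1 + 1 - 2 * 0) = 17 / 2 := by norm_num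
    have e4 : ((16 : ℝ) * 1 - 8 * 0 + 1) ^ 2 / (1 * 1 - 0 ^ 2) = 17 ^ 2 := by norm_num
    rw [e1, e3, e4, h17, Real.log_pow] at this
    push_cast at this
    have key := mul_lt_mul_of_pos_right hu l17
    linarith only [this, key]

lemma inv_ofReal_toReal {u : ℝ} (hu : 0 < u) : (((ENNReal.ofReal u)⁻¹)⁻¹).toReal = u := by
  rw [inv_inv, ENNReal.toReal_ofReal hu.le]

lemma one_lt_inv_ofReal {u : ℝ} (hu1 : u < 1) : 1 < (ENNReal.ofReal u)⁻¹ := by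
  rw [ENNReal.one_lt_inv, ← ENNReal.ofReal_one]
  exact (ENNReal.ofReal_lt_ofReal_iff one_pos).2 hu1

lemma holder_of_real {u₁ u₂ u₃ : ℝ} (h₁ : 0 < u₁) (h₂ : 0 < u₂) (h₃ : 0 < u₃)
    (k₁ : u₁ < 1) (k₂ : u₂ < 1) (k₃ : u₃ < 1) (hr0 : 0 < r) (hrt : r < ∞)
    (hr : 1 / r.toReal = u₁ + u₂ + u₃) :
    IsHolderTuple (ENNReal.ofReal u₁)⁻¹ (ENNReal.ofReal u₂)⁻¹ (ENNReal.ofReal u₃)⁻¹ r where
  one_lt_p₁ := one_lt_inv_ofReal k₁
  one_lt_p₂ := one_lt_inv_ofReal k₂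
  one_lt_p₃ := one_lt_inv_ofReal k₃
  r_pos := hr0
  r_lt_top := hrt
  holder := by
    rw [inv_inv, inv_inv, inv_inv, ← ENNReal.ofReal_add h₁.le h₂.le,
      ← ENNReal.ofReal_add (by positivity) h₃.le, ← hr, one_div, ← ENNReal.toReal_inv,
      ENNReal.ofReal_toReal (ENNReal.inv_ne_top.2 hr0.ne')]

lemma logb_17_lt : Real.logb 17 2 < 1 / 2 := by
  rw [Real.logb_lt_iff_lt_rpow (by norm_num) (by norm_num), ← Real.sqrt_eq_rpow]
  exact Real.lt_sqrt_of_sq_lt (by norm_num)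

/-- Unbounded tuples exist for every `r` in `(1/3, 1/2)`. -/
theorem exists_not_bounded (h3 : 1 / 3 < r) (h2 : r < 1 / 2) :
    ∃ p₁ p₂ p₃ : ℝ≥0∞, IsHolderTuple p₁ p₂ p₃ r ∧ ¬ BoundedAt p₁ p₂ p₃ r := by
  have hr0 : 0 < r := lt_of_le_of_lt zero_le h3
  have hrt : r < ∞ := h2.trans_le le_top
  have rpos : 0 < r.toReal := ENNReal.toReal_pos hr0.ne' hrt.ne
  have hlow : 2 < 1 / r.toReal := two_lt_of_lt_half hr0 h2
  have hup : 1 / r.toReal < 3 := by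
    have : 1 / 3 < r.toReal := by
      have := (ENNReal.toReal_lt_toReal (by simp) hrt.ne).2 h3
      simpa using this
    rw [div_lt_iff₀ rpos]; linarith
  obtain ⟨σ, hσ⟩ : ∃ σ : ℝ, σ = 1 / r.toReal := ⟨_, rfl⟩
  rw [← hσ] at hlow hup
  rcases lt_or_ge σ (5 / 2) with hc | hc
  · -- `u = (1 - y/4, 1 - y/4, y)` with `y = 2 (σ - 2)`
    obtain ⟨y, hy⟩ : ∃ y : ℝ, y = 2 * (σ - 2) := ⟨_, rfl⟩
    have y0 : 0 < y := by rw [hy]; linarith only [hlow]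
    have y1 : y < 1 := by rw [hy]; linarith only [hc]
    have hh : IsHolderTuple (ENNReal.ofReal (1 - y / 4))⁻¹ (ENNReal.ofReal (1 - y / 4))⁻¹
        (ENNReal.ofReal y)⁻¹ r :=
      holder_of_real (by linarith only [hc, hy]) (by linarith) y0 (by linarith only [hlow, hy]) (by linarith only [hlow, hy]) y1 hr0 hrt
        (by rw [← hσ, hy]; ring)
    refine ⟨_, _, _, hh, not_bounded_linear hh (Or.inr (Or.inr ?_))⟩
    rw [inv_ofReal_toReal (by linarith only [hc, hy]), inv_ofReal_toReal y0]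
    have := logb_17_lt
    nlinarith only [hlow, this, hy]
  · have hh : IsHolderTuple (ENNReal.ofReal (σ / 3))⁻¹ (ENNReal.ofReal (σ / 3))⁻¹
        (ENNReal.ofReal (σ / 3))⁻¹ r :=
      holder_of_real (by linarith only [hlow]) (by linarith only [hlow]) (by linarith only [hlow]) (by linarith only [hup]) (by linarith only [hup])
        (by linarith only [hup]) hr0 hrt (by rw [← hσ]; ring)
    refine ⟨_, _, _, hh, not_bounded_linear hh (Or.inr (Or.inr ?_))⟩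
    rw [inv_ofReal_toReal (by linarith only [hlow])]
    have := logb_17_lt
    nlinarith only [hc, this]

/-- The sharp discrete necessary condition. -/
theorem discrete_of_boundedAt (h : IsHolderTuple p₁ p₂ p₃ r) (t₁ : p₁ ≠ ∞) (t₂ : p₂ ≠ ∞)
    (t₃ : p₃ ≠ ∞) (hr : r < 1) (hb : BoundedAt p₁ p₂ p₃ r) (F₁ F₂ F₃ : ℤ → ℝ≥0∞) :
    (∑' x, (∑' t, F₁ (x - t) * F₂ (x - 2 * t) * F₃ (x - 3 * t)) ^ (1 / (1 / r.toReal - 1))) ^
      (1 / r.toReal - 1) ≤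
      (∑' z, F₁ z ^ p₁.toReal) ^ (1 / p₁.toReal) * (∑' z, F₂ z ^ p₂.toReal) ^ (1 / p₂.toReal) *
        (∑' z, F₃ z ^ p₃.toReal) ^ (1 / p₃.toReal) := by
  have rpos : 0 < r.toReal := ENNReal.toReal_pos h.r_pos.ne' h.r_lt_top.ne
  obtain ⟨K, hKt, hK⟩ := exists_bddWith t₁ t₂ t₃ h.r_lt_top.ne hb
  have hH := holder_real h
  rw [ENNReal.toReal_inv, ENNReal.toReal_inv, ENNReal.toReal_inv] at hH
  simp only [← one_div] at hH
  have hr1 : r.toReal < 1 := by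
    have := (ENNReal.toReal_lt_toReal h.r_lt_top.ne ENNReal.one_ne_top).2 hr
    simpa only [gt_iff_lt, ENNReal.toReal_one] using this
  refine discrete_norm (toReal_pos' h.one_lt_p₁ t₁) (toReal_pos' h.one_lt_p₂ t₂)
    (toReal_pos' h.one_lt_p₃ t₃) rpos hr1 ?_ hKt hK F₁ F₂ F₃
  rw [← hH, le_div_iff₀ rpos]; linarith only [hr1]

end Vale.Agent.P141
end
end

section

section

open MeasureTheory Filter Topology
open scoped ENNReal SchwartzMap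

namespace Vale.Agent.P141

lemma schwartz_bdd (f : 𝓢(ℝ, ℂ)) : ∃ B : ℝ, 0 ≤ B ∧ ∀ x, ‖f x‖ ≤ B := by
  refine ⟨‖f.toBoundedContinuousFunction‖, norm_nonneg _, fun x => ?_⟩
  exact f.toBoundedContinuousFunction.norm_coe_le_norm x

lemma schwartz_lip (f : 𝓢(ℝ, ℂ)) : ∃ L : ℝ, 0 ≤ L ∧ ∀ x y, ‖f x - f y‖ ≤ L * |x - y| := by
  obtain ⟨C, hC⟩ := f.decay 0 1
  refine ⟨C, hC.1.le, fun x y => ?_⟩
  have hb : ∀ z ∈ (Set.univ : Set ℝ), ‖deriv f z‖ ≤ C := by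
    intro z _
    have := hC.2 z
    rw [pow_zero, one_mul, norm_iteratedFDeriv_one] at this
    rw [norm_deriv_eq_norm_fderiv]
    exact this
  have := convex_univ.norm_image_sub_le_of_norm_deriv_le (𝕜 := ℝ)
    (fun z _ => f.differentiableAt) hb (Set.mem_univ y) (Set.mem_univ x)
  rwa [Real.norm_eq_abs] at this

/-- The product appearing in the integrand. -/
noncomputable def hh3 (f₁ f₂ f₃ : 𝓢(ℝ, ℂ)) (x t : ℝ) : ℂ :=
  f₁ (x - t) * f₂ (x - 2 * t) * f₃ (x - 3 * t)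

lemma hh3_continuous (f₁ f₂ f₃ : 𝓢(ℝ, ℂ)) (x : ℝ) : Continuous (hh3 f₁ f₂ f₃ x) := by
  have h₁ := f₁.continuous
  have h₂ := f₂.continuous
  have h₃ := f₃.continuous
  unfold hh3
  fun_prop

lemma hh3_integrable (f₁ f₂ f₃ : 𝓢(ℝ, ℂ)) (x : ℝ) : Integrable (hh3 f₁ f₂ f₃ x) := by
  obtain ⟨B₂, hB₂, h₂⟩ := schwartz_bdd f₂
  obtain ⟨B₃, hB₃, h₃⟩ := schwartz_bdd f₃
  have hi : Integrable (fun t => ‖f₁ (x - t)‖ * (B₂ * B₃)) :=
    ((f₁.integrable.comp_sub_left x).norm).mul_const _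
  refine hi.mono' (hh3_continuous f₁ f₂ f₃ x).aestronglyMeasurable (ae_of_all _ fun t => ?_)
  unfold hh3
  rw [norm_mul, norm_mul, mul_assoc]
  gcongr
  · exact h₂ _
  · exact h₃ _

lemma hh3_lip (f₁ f₂ f₃ : 𝓢(ℝ, ℂ)) (x : ℝ) :
    ∃ L : ℝ, 0 ≤ L ∧ ∀ t, ‖hh3 f₁ f₂ f₃ x t - hh3 f₁ f₂ f₃ x (-t)‖ ≤ L * |t| := by
  obtain ⟨B₁, hB₁, b₁⟩ := schwartz_bdd f₁
  obtain ⟨B₂, hB₂, b₂⟩ := schwartz_bdd f₂
  obtain ⟨B₃, hB₃, b₃⟩ := schwartz_bdd f₃
  obtain ⟨L₁, hL₁, l₁⟩ := schwartz_lip f₁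
  obtain ⟨L₂, hL₂, l₂⟩ := schwartz_lip f₂
  obtain ⟨L₃, hL₃, l₃⟩ := schwartz_lip f₃
  refine ⟨L₁ * 2 * B₂ * B₃ + B₁ * (L₂ * 4) * B₃ + B₁ * B₂ * (L₃ * 6), by (clear * - hL₁ hB₂ hB₃ hB₁ hL₂ hL₃; positivity), fun t => ?_⟩
  have e : hh3 f₁ f₂ f₃ x t - hh3 f₁ f₂ f₃ x (-t) =
      (f₁ (x - t) - f₁ (x - -t)) * f₂ (x - 2 * t) * f₃ (x - 3 * t) +
      f₁ (x - -t) * (f₂ (x - 2 * t) - f₂ (x - 2 * -t)) * f₃ (x - 3 * t) +
      f₁ (x - -t) * f₂ (x - 2 * -t) * (f₃ (x - 3 * t) - f₃ (x - 3 * -t)) := by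
    unfold hh3; ring
  rw [e]
  have a₁ : ‖f₁ (x - t) - f₁ (x - -t)‖ ≤ L₁ * 2 * |t| := by
    refine (l₁ _ _).trans_eq ?_
    rw [show x - t - (x - -t) = -2 * t by ring, abs_mul]; norm_num; ring
  have a₂ : ‖f₂ (x - 2 * t) - f₂ (x - 2 * -t)‖ ≤ L₂ * 4 * |t| := by
    refine (l₂ _ _).trans_eq ?_
    rw [show x - 2 * t - (x - 2 * -t) = -4 * t by ring, abs_mul]; norm_num; ring
  have a₃ : ‖f₃ (x - 3 * t) - f₃ (x - 3 * -t)‖ ≤ L₃ * 6 * |t| := by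
    refine (l₃ _ _).trans_eq ?_
    rw [show x - 3 * t - (x - 3 * -t) = -6 * t by ring, abs_mul]; norm_num; ring
  calc _ ≤ ‖(f₁ (x - t) - f₁ (x - -t)) * f₂ (x - 2 * t) * f₃ (x - 3 * t)‖ +
      ‖f₁ (x - -t) * (f₂ (x - 2 * t) - f₂ (x - 2 * -t)) * f₃ (x - 3 * t)‖ +
      ‖f₁ (x - -t) * f₂ (x - 2 * -t) * (f₃ (x - 3 * t) - f₃ (x - 3 * -t))‖ :=
        norm_add₃_le
    _ ≤ (L₁ * 2 * |t|) * B₂ * B₃ + B₁ * (L₂ * 4 * |t|) * B₃ + B₁ * B₂ * (L₃ * 6 * |t|) := by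
        simp only [norm_mul]
        gcongr
        · exact b₂ _
        · exact b₃ _
        · exact b₁ _
        · exact b₃ _
        · exact b₁ _
        · exact b₂ _
    _ = _ := by ring

lemma measurableSet_shell (ε R : ℝ) : MeasurableSet {t : ℝ | ε < |t| ∧ |t| < R} :=
  (measurableSet_lt measurable_const measurable_abs).inter
    (measurableSet_lt measurable_abs measurable_const)

lemma integrableOn_shell (f₁ f₂ f₃ : 𝓢(ℝ, ℂ)) (x : ℝ) {ε R : ℝ} (hε : 0 < ε) :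
    IntegrableOn (fun t : ℝ => hh3 f₁ f₂ f₃ x t / (t : ℂ)) {t : ℝ | ε < |t| ∧ |t| < R} := by
  have hi : IntegrableOn (fun t => ‖hh3 f₁ f₂ f₃ x t‖ * ε⁻¹) {t : ℝ | ε < |t| ∧ |t| < R} :=
    ((hh3_integrable f₁ f₂ f₃ x).norm.mul_const _).integrableOn
  refine hi.mono' ?_ ?_
  · have hm : Measurable fun t : ℝ => hh3 f₁ f₂ f₃ x t / (t : ℂ) :=
      (hh3_continuous f₁ f₂ f₃ x).measurable.div (by fun_prop)
    exact hm.aestronglyMeasurable
  · refine (ae_restrict_iff' (measurableSet_shell ε R)).2 (ae_of_all _ fun t ht => ?_)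
    rw [norm_div, div_eq_mul_inv]
    have ht' : ε ≤ |t| := ht.1.le
    gcongr
    simpa using ht'

/-- The even part of the singular integrand. -/
noncomputable def kk3 (f₁ f₂ f₃ : 𝓢(ℝ, ℂ)) (x t : ℝ) : ℂ :=
  (hh3 f₁ f₂ f₃ x t - hh3 f₁ f₂ f₃ x (-t)) / (t : ℂ)

lemma truncTHT_eq_half (f₁ f₂ f₃ : 𝓢(ℝ, ℂ)) (x : ℝ) {ε R : ℝ} (hε : 0 < ε) :
    truncTHT f₁ f₂ f₃ ε R x =
      (1 / 2 : ℂ) * ∫ t, {t : ℝ | ε < |t| ∧ |t| < R}.indicator (kk3 f₁ f₂ f₃ x) t := by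
  set S : Set ℝ := {t : ℝ | ε < |t| ∧ |t| < R} with hS
  have hSm : MeasurableSet S := measurableSet_shell ε R
  set F : ℝ → ℂ := fun t => hh3 f₁ f₂ f₃ x t / (t : ℂ) with hF
  have hFi : Integrable (S.indicator F) := (integrableOn_shell f₁ f₂ f₃ x hε).integrable_indicator hSm
  have h1 : truncTHT f₁ f₂ f₃ ε R x = ∫ t, S.indicator F t := by
    rw [integral_indicator hSm]; rfl
  have h2 : ∫ t, S.indicator F (-t) = ∫ t, S.indicator F t := integral_neg_eq_self _ _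
  have h3 : ∫ t, S.indicator (kk3 f₁ f₂ f₃ x) t =
      (∫ t, S.indicator F t) + (∫ t, S.indicator F (-t)) := by
    rw [← integral_add hFi hFi.comp_neg]
    congr 1
    funext t
    by_cases ht : t ∈ S
    · have ht' : -t ∈ S := by
        show ε < |-t| ∧ |-t| < R
        rw [abs_neg]; exact ht
      rw [Set.indicator_of_mem ht, Set.indicator_of_mem ht, Set.indicator_of_mem ht']
      simp only [hF, kk3]
      push_cast
      rw [div_neg, sub_div, sub_eq_add_neg]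
    · have ht' : -t ∉ S := by
        intro h
        apply ht
        have : ε < |-t| ∧ |-t| < R := h
        rwa [abs_neg] at this
      rw [Set.indicator_of_notMem ht, Set.indicator_of_notMem ht, Set.indicator_of_notMem ht',
        add_zero]
  rw [h3, h2, h1]
  ring

/-- The limit defining `T` exists for all Schwartz inputs. -/
theorem exists_tendsto_truncTHT (f₁ f₂ f₃ : 𝓢(ℝ, ℂ)) (x : ℝ) :
    Tendsto (fun q : ℝ × ℝ => truncTHT f₁ f₂ f₃ q.1 q.2 x) (𝓝[>] (0 : ℝ) ×ˢ atTop)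
      (𝓝 (THT f₁ f₂ f₃ x)) := by
  obtain ⟨L, hL, hl⟩ := hh3_lip f₁ f₂ f₃ x
  have main : Tendsto (fun q : ℝ × ℝ =>
      ∫ t, {t : ℝ | q.1 < |t| ∧ |t| < q.2}.indicator (kk3 f₁ f₂ f₃ x) t)
      (𝓝[>] (0 : ℝ) ×ˢ atTop) (𝓝 (∫ t, kk3 f₁ f₂ f₃ x t)) := by
    have hm : Measurable (kk3 f₁ f₂ f₃ x) := by
      unfold kk3
      exact ((hh3_continuous f₁ f₂ f₃ x).measurable.sub
        ((hh3_continuous f₁ f₂ f₃ x).measurable.comp measurable_neg)).div (by fun_prop)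
    refine tendsto_integral_filter_of_dominated_convergence
      (fun t => (Set.Icc (-1 : ℝ) 1).indicator (fun _ => L) t +
        (‖hh3 f₁ f₂ f₃ x t‖ + ‖hh3 f₁ f₂ f₃ x (-t)‖)) ?_ ?_ ?_ ?_
    · exact Eventually.of_forall fun q =>
        (hm.indicator (measurableSet_shell q.1 q.2)).aestronglyMeasurable
    · refine Eventually.of_forall fun q => ae_of_all _ fun t => ?_
      refine (norm_indicator_le_norm_self _ _).trans ?_
      unfold kk3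
      rw [norm_div, Complex.norm_real, Real.norm_eq_abs]
      by_cases ht : |t| ≤ 1
      · have hmem : t ∈ Set.Icc (-1 : ℝ) 1 := abs_le.1 ht
        rw [Set.indicator_of_mem hmem]
        have h1 : ‖hh3 f₁ f₂ f₃ x t - hh3 f₁ f₂ f₃ x (-t)‖ / |t| ≤ L := by
          apply div_le_of_le_mul₀ (abs_nonneg _) hL
          exact hl t
        have h2 : 0 ≤ ‖hh3 f₁ f₂ f₃ x t‖ + ‖hh3 f₁ f₂ f₃ x (-t)‖ := by positivity
        linarith
      · push Not at ht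
        have h0 : 0 ≤ (Set.Icc (-1 : ℝ) 1).indicator (fun _ => L) t :=
          Set.indicator_nonneg (fun _ _ => hL) _
        have h1 : ‖hh3 f₁ f₂ f₃ x t - hh3 f₁ f₂ f₃ x (-t)‖ / |t| ≤
            ‖hh3 f₁ f₂ f₃ x t - hh3 f₁ f₂ f₃ x (-t)‖ := div_le_self (norm_nonneg _) ht.le
        have h2 := norm_sub_le (hh3 f₁ f₂ f₃ x t) (hh3 f₁ f₂ f₃ x (-t))
        linarith only [h0, h1, h2]
    · refine Integrable.add ?_ ?_
      · exact (integrableOn_const (by simp only [Real.volume_Icc, sub_neg_eq_add, ne_eq, ENNReal.ofReal_ne_top, not_false_eq_true]) (by simp)).integrable_indicator measurableSet_Icc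
      · exact (hh3_integrable f₁ f₂ f₃ x).norm.add (hh3_integrable f₁ f₂ f₃ x).comp_neg.norm
    · have h0 : ∀ᵐ t : ℝ, t ≠ 0 := by
        rw [ae_iff]; simp
      filter_upwards [h0] with t ht
      apply tendsto_const_nhds.congr'
      have h1 : ∀ᶠ ε : ℝ in 𝓝[>] (0 : ℝ), ε < |t| :=
        nhdsWithin_le_nhds (Iio_mem_nhds (abs_pos.2 ht))
      have h2 : ∀ᶠ R : ℝ in atTop, |t| < R := eventually_gt_atTop _
      filter_upwards [h1.prod_mk h2] with q hq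
      have hmem : t ∈ {t : ℝ | q.1 < |t| ∧ |t| < q.2} := hq
      rw [Set.indicator_of_mem hmem]
  have h2 : Tendsto (fun q : ℝ × ℝ => truncTHT f₁ f₂ f₃ q.1 q.2 x) (𝓝[>] (0 : ℝ) ×ˢ atTop)
      (𝓝 ((1 / 2 : ℂ) * ∫ t, kk3 f₁ f₂ f₃ x t)) := by
    refine (main.const_mul (1 / 2 : ℂ)).congr' ?_
    have h1 : ∀ᶠ ε : ℝ in 𝓝[>] (0 : ℝ), 0 < ε := self_mem_nhdsWithin
    filter_upwards [h1.prod_inl (atTop : Filter ℝ)] with q hq
    exact (truncTHT_eq_half f₁ f₂ f₃ x hq).symm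
  unfold THT
  rw [h2.limUnder_eq]
  exact h2

end Vale.Agent.P141
end
end
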